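import Mathlib

/-!
# rid 19 (S0025): shared definitions.

Good numbers `v` divide a sum of `s` divisors `e 0, ..., e (s-1)` of a fixed number `Q`.
-/

set_option autoImplicit false

namespace Crest.Agent.R019

open Finset

/-- subset product of a tuple -/
def xprod {n : ℕ} (P : Fin n → ℕ) (S : Finset (Fin n)) : ℕ := ∏ i ∈ S, P i

/-- number of pairs of subsets whose subset products are congruent mod `w` -/
def coll {n : ℕ} (P : Fin n → ℕ) (w : ℕ) : ℕ :=
  ((Finset.univ : Finset (Finset (Fin n) × Finset (Fin n))).filter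
    (fun p => xprod P p.1 ≡ xprod P p.2 [MOD w])).card

/-- What the number-theoretic core delivers and what the assembly consumes.
`s` = number of unit fractions used for one good numerator,
`Q` = the universal multiple, `good v` = the numerators which are allowed. -/
structure CoreData (s n Q : ℕ) (good : ℕ → Prop) : Prop where
  Qpos : 0 < Q
  good_odd : ∀ v, good v → Odd v
  good_rep : ∀ v, good v → ∃ e : Fin s → ℕ, (∀ j, e j ∣ Q) ∧
    (∀ j, padicValNat 2 (e j) = 2 * j) ∧ v ∣ ∑ j, e j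
  dense : ∀ x : ℕ, 2 ^ (n / 64) ≤ x → x ≤ 2 ^ (n / 4) →
    ∃ v, good v ∧ v ≤ x ∧ x < v + 2 ^ (n / 64)
  fin : ∀ q : ℕ, 1 ≤ q → q ≤ 2 ^ (n / 8) →
    ∃ t, 0 < t ∧ 4 ^ s ∣ t ∧ 1 < t * q ∧ good (t * q - 1)

end Crest.Agent.R019
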