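import Mathlib
import Crest.Agent.R019.Defs

set_option autoImplicit false

/-! Lemma C4 (finite Fourier analysis) of the row 19 blueprint. -/

namespace Crest.Agent.R019
open Finset

/-- Bilinear exponential sum estimate. -/
theorem norm_bilinear_sq_le {ι : Type*} [Fintype ι] [DecidableEq ι] {w : ℕ} [NeZero w]
    (u : ZMod w) (hu : IsUnit u) (X : ι → ZMod w) :
    ‖∑ S, ∑ S', (ZMod.stdAddChar (u * (X S * X S')) : ℂ)‖ ^ 2 ≤
      w * ((univ.filter fun p : ι × ι => X p.1 = X p.2).card : ℝ) ^ 2 := by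
  classical
  set ψ : AddChar (ZMod w) ℂ := ZMod.stdAddChar with hψ
  set g : ZMod w → ℂ := fun a => ∑ S', ψ (u * (a * X S')) with hg
  set r : ZMod w → ℕ := fun a => (univ.filter fun S => X S = a).card with hr
  set K : ℕ := (univ.filter fun p : ι × ι => X p.1 = X p.2).card with hK
  have h1 : ∑ S, ∑ S', ψ (u * (X S * X S')) = ∑ a, (r a : ℂ) * g a := by
    rw [← Finset.sum_fiberwise univ X]
    refine Finset.sum_congr rfl fun a _ => ?_
    rw [Finset.sum_congr rfl (g := fun _ => g a), Finset.sum_const, nsmul_eq_mul]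
    intro S hS
    rw [Finset.mem_filter] at hS
    simp [hg, hS.2]
  have hKr : (K : ℝ) = ∑ a, (r a : ℝ) ^ 2 := by
    have : K = ∑ a, r a * r a := by
      rw [hK, Finset.card_filter, Fintype.sum_prod_type]
      simp_rw [← Finset.card_filter]
      rw [← Finset.sum_fiberwise univ X]
      refine Finset.sum_congr rfl fun a _ => ?_
      rw [Finset.sum_congr rfl (g := fun _ => r a), Finset.sum_const, smul_eq_mul]
      intro S hS
      rw [Finset.mem_filter] at hS
      simp only [hr, hS.2]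
      congr 1
      ext T
      simp [eq_comm]
    rw [this]
    push_cast
    refine Finset.sum_congr rfl fun a _ => by ring
  have hgsum : ∑ a, ‖g a‖ ^ 2 = w * K := by
    have hc : ((∑ a, ‖g a‖ ^ 2 : ℝ) : ℂ) = (w : ℂ) * K := by
      push_cast
      have e1 : ∀ a, ((‖g a‖ : ℂ)) ^ 2 = ∑ p : ι × ι, ψ (a * (u * (X p.1 - X p.2))) := by
        intro a
        rw [← Complex.mul_conj', hg, map_sum, Finset.sum_mul_sum, Fintype.sum_prod_type]
        refine Finset.sum_congr rfl fun S _ => Finset.sum_congr rfl fun S' _ => ?_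
        rw [← AddChar.map_neg_eq_conj, ← AddChar.map_add_eq_mul]
        congr 1
        ring
      simp_rw [e1]
      rw [Finset.sum_comm]
      have e2 : ∀ p : ι × ι, ∑ a, ψ (a * (u * (X p.1 - X p.2))) =
          if X p.1 = X p.2 then (w : ℂ) else 0 := by
        intro p
        rw [AddChar.sum_mulShift _ (ZMod.isPrimitive_stdAddChar w)]
        have : u * (X p.1 - X p.2) = 0 ↔ X p.1 = X p.2 := by
          rw [hu.mul_right_eq_zero, sub_eq_zero]
        simp [this, ZMod.card]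
      simp_rw [e2]
      rw [← Finset.sum_filter, Finset.sum_const, nsmul_eq_mul, mul_comm]
    exact_mod_cast hc
  have h2 : ‖∑ a, (r a : ℂ) * g a‖ ≤ ∑ a, (r a : ℝ) * ‖g a‖ := by
    refine (norm_sum_le _ _).trans (Finset.sum_le_sum fun a _ => ?_)
    rw [norm_mul]
    simp
  calc ‖∑ S, ∑ S', ψ (u * (X S * X S'))‖ ^ 2 = ‖∑ a, (r a : ℂ) * g a‖ ^ 2 := by rw [h1]
    _ ≤ (∑ a, (r a : ℝ) * ‖g a‖) ^ 2 := by gcongr
    _ ≤ (∑ a, (r a : ℝ) ^ 2) * ∑ a, ‖g a‖ ^ 2 := Finset.sum_mul_sq_le_sq_mul_sq _ _ _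
    _ = w * (K : ℝ) ^ 2 := by rw [hgsum, ← hKr]; ring

theorem stdAddChar_reduce {v w g : ℕ} [NeZero v] [NeZero w] (hv : v = g * w) (a m : ℕ) :
    (ZMod.stdAddChar (((g * a : ℕ) : ZMod v) * (m : ZMod v)) : ℂ) =
      ZMod.stdAddChar ((a : ZMod w) * (m : ZMod w)) := by
  have hw : (w : ℂ) ≠ 0 := by exact_mod_cast NeZero.ne w
  have hg : (g : ℂ) ≠ 0 := by
    have : g ≠ 0 := by
      rintro rfl
      exact NeZero.ne v (by simpa using hv)
    exact_mod_cast this
  have h1 := ZMod.stdAddChar_coe (N := v) (((g * a * m : ℕ) : ℤ))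
  have h2 := ZMod.stdAddChar_coe (N := w) (((a * m : ℕ) : ℤ))
  have e1 : ((((g * a * m : ℕ) : ℤ)) : ZMod v) = ((g * a : ℕ) : ZMod v) * (m : ZMod v) := by
    push_cast; ring
  have e2 : ((((a * m : ℕ) : ℤ)) : ZMod w) = (a : ZMod w) * (m : ZMod w) := by
    push_cast; ring
  rw [e1] at h1
  rw [e2] at h2
  rw [h1, h2]
  congr 1
  have hvc : (v : ℂ) = g * w := by exact_mod_cast hv
  rw [hvc]
  push_cast
  field_simp

/-- The sum over pairs attached to the frequency `h`. -/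
noncomputable def Tsum {n v : ℕ} [NeZero v] (P : Fin n → ℕ) (c : ℕ) (h : ZMod v) : ℂ :=
  ∑ S : Finset (Fin n), ∑ S' : Finset (Fin n),
    ZMod.stdAddChar (h * ((c * (xprod P S * xprod P S') : ℕ) : ZMod v))

theorem norm_Tsum_le {n v : ℕ} [NeZero v] (P : Fin n → ℕ) (c : ℕ) (h : ZMod v) :
    ‖Tsum P c h‖ ≤ (4 : ℝ) ^ n := by
  unfold Tsum
  refine (norm_sum_le _ _).trans ?_
  have : ∀ S : Finset (Fin n), ‖∑ S' : Finset (Fin n),
      (ZMod.stdAddChar (h * ((c * (xprod P S * xprod P S') : ℕ) : ZMod v)) : ℂ)‖ ≤ 2 ^ n := by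
    intro S
    refine (norm_sum_le _ _).trans ?_
    simp [Fintype.card_finset]
  refine (Finset.sum_le_sum fun S _ => this S).trans ?_
  rw [Finset.sum_const, Finset.card_univ, Fintype.card_finset, Fintype.card_fin, nsmul_eq_mul]
  push_cast
  rw [← mul_pow]
  norm_num

theorem Tsum_sq_le {n v : ℕ} [NeZero v] (P : Fin n → ℕ) {c : ℕ} (hc : c.Coprime v) (h : ZMod v) :
    ‖Tsum P c h‖ ^ 2 ≤ (addOrderOf h : ℝ) * (coll P (addOrderOf h) : ℝ) ^ 2 := by
  classical
  have hv0 : v ≠ 0 := NeZero.ne v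
  have hh : h = (h.val : ZMod v) := (ZMod.natCast_zmod_val h).symm
  set g := v.gcd h.val with hg
  have hgpos : 0 < g := Nat.gcd_pos_of_pos_left _ (Nat.pos_of_ne_zero hv0)
  have hw : addOrderOf h = v / g := by
    conv_lhs => rw [hh]
    rw [ZMod.addOrderOf_coe _ hv0]
  set w := addOrderOf h with hwdef
  have hvg : v = g * w := by
    rw [hw]; exact (Nat.mul_div_cancel' (Nat.gcd_dvd_left _ _)).symm
  have hw0 : w ≠ 0 := by
    rintro h0
    rw [h0] at hvg
    exact hv0 (by simpa using hvg)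
  have : NeZero w := ⟨hw0⟩
  obtain ⟨a, ha⟩ : g ∣ h.val := Nat.gcd_dvd_right _ _
  have hcop : a.Coprime w := by
    have h1 := Nat.coprime_div_gcd_div_gcd (m := v) (n := h.val) hgpos
    rw [← hg, ← hw] at h1
    have h2 : h.val / g = a := by rw [ha]; exact Nat.mul_div_cancel_left _ hgpos
    rw [h2] at h1
    exact h1.symm
  have hcw : c.Coprime w := Nat.Coprime.coprime_dvd_right ⟨g, by rw [hvg]; ring⟩ hc
  have hu : IsUnit (((a * c : ℕ) : ZMod w)) := by
    rw [ZMod.isUnit_iff_coprime]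
    exact Nat.Coprime.mul_left hcop hcw
  have key : Tsum P c h = ∑ S : Finset (Fin n), ∑ S' : Finset (Fin n),
      (ZMod.stdAddChar (((a * c : ℕ) : ZMod w) *
        ((xprod P S : ZMod w) * (xprod P S' : ZMod w))) : ℂ) := by
    unfold Tsum
    refine Finset.sum_congr rfl fun S _ => Finset.sum_congr rfl fun S' _ => ?_
    have e : h = ((g * a : ℕ) : ZMod v) := by rw [← ha]; exact hh
    conv_lhs => rw [e]
    rw [stdAddChar_reduce hvg]
    congr 1
    push_cast
    ring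
  rw [key]
  refine (norm_bilinear_sq_le _ hu (fun S : Finset (Fin n) => (xprod P S : ZMod w))).trans ?_
  have : (univ.filter fun p : Finset (Fin n) × Finset (Fin n) =>
      (xprod P p.1 : ZMod w) = (xprod P p.2 : ZMod w)).card = coll P w := by
    unfold coll
    congr 1
    ext p
    simp [ZMod.natCast_eq_natCast_iff]
  rw [this]

theorem sum_inv_cube_lt_one (v : ℕ) [NeZero v] :
    ∑ h ∈ (univ.erase (0 : ZMod v)), 1 / ((addOrderOf h : ℝ)) ^ 3 < 1 := by
  classical
  have hv0 : 0 < v := Nat.pos_of_ne_zero (NeZero.ne v)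
  have hmap : ∀ h ∈ (univ.erase (0 : ZMod v)), addOrderOf h ∈ Finset.Ico 2 (v + 1) := by
    intro h hh
    rw [Finset.mem_erase] at hh
    rw [Finset.mem_Ico]
    have h1 : addOrderOf h ≠ 1 := by
      rw [Ne, AddMonoid.addOrderOf_eq_one_iff]; exact hh.1
    have h2 : addOrderOf h ≤ v := by
      have := addOrderOf_le_card_univ (x := h)
      rwa [ZMod.card] at this
    have h3 : 0 < addOrderOf h := addOrderOf_pos h
    omega
  rw [← Finset.sum_fiberwise_of_maps_to hmap]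
  have hb : ∀ w ∈ Finset.Ico 2 (v + 1),
      ∑ h ∈ (univ.erase (0 : ZMod v)) with addOrderOf h = w, 1 / ((addOrderOf h : ℝ)) ^ 3 ≤
        1 / ((w : ℝ) - 1) - 1 / (w : ℝ) := by
    intro w hw
    rw [Finset.mem_Ico] at hw
    have hw2 : (2 : ℝ) ≤ w := by exact_mod_cast hw.1
    have hc : ((univ.erase (0 : ZMod v)).filter fun h => addOrderOf h = w).card ≤ w := by
      refine le_trans (Finset.card_le_card ?_)
        (IsAddCyclic.card_nsmul_eq_zero_le (α := ZMod v) (n := w) (by omega))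
      intro h hh
      rw [Finset.mem_filter] at hh ⊢
      refine ⟨Finset.mem_univ _, ?_⟩
      rw [← hh.2]
      exact addOrderOf_nsmul_eq_zero h
    have hs : ∑ h ∈ (univ.erase (0 : ZMod v)) with addOrderOf h = w,
        1 / ((addOrderOf h : ℝ)) ^ 3 =
        ((univ.erase (0 : ZMod v)).filter fun h => addOrderOf h = w).card * (1 / (w : ℝ) ^ 3) := by
      rw [Finset.sum_congr rfl (g := fun _ => 1 / (w : ℝ) ^ 3), Finset.sum_const, nsmul_eq_mul]
      intro h hh
      rw [Finset.mem_filter] at hh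
      rw [hh.2]
    rw [hs]
    have hw0 : (0 : ℝ) < w := by linarith
    have hw1 : (0 : ℝ) < (w : ℝ) - 1 := by linarith
    calc (((univ.erase (0 : ZMod v)).filter fun h => addOrderOf h = w).card : ℝ) *
          (1 / (w : ℝ) ^ 3) ≤ w * (1 / (w : ℝ) ^ 3) := by
          gcongr
      _ = 1 / (w : ℝ) ^ 2 := by field_simp
      _ ≤ 1 / (((w : ℝ) - 1) * w) := by
          apply one_div_le_one_div_of_le (by positivity)
          nlinarith
      _ = 1 / ((w : ℝ) - 1) - 1 / (w : ℝ) := by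
          field_simp
          ring
  refine lt_of_le_of_lt (Finset.sum_le_sum hb) ?_
  have htel : ∀ m : ℕ, ∑ w ∈ Finset.Ico 2 (m + 2), (1 / ((w : ℝ) - 1) - 1 / (w : ℝ)) =
      1 - 1 / ((m : ℝ) + 1) := by
    intro m
    induction m with
    | zero => simp
    | succ k ih =>
      rw [Finset.sum_Ico_succ_top (by omega), ih]
      push_cast
      have h1 : (0 : ℝ) < (k : ℝ) + 1 := by positivity
      have h2 : ((k : ℝ) + 2 - 1) = (k : ℝ) + 1 := by ring
      rw [h2]
      ring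
  obtain ⟨m, rfl⟩ : ∃ m, v = m + 1 := ⟨v - 1, by omega⟩
  rw [htel m]
  have : (0 : ℝ) < 1 / ((m : ℝ) + 1) := by positivity
  linarith

/-- Lemma C4: solvability of `v ∣ ∑ c_{t,j} x_t(S_{t,j}) x_t(S'_{t,j})`. -/
theorem fourier {κ n v : ℕ} (P : Fin κ → Fin n → ℕ) (c : Fin κ → Fin 30 → ℕ) (hv : 0 < v)
    (hc : ∀ t j, (c t j).Coprime v)
    (hcoll : ∀ w, w ∣ v → 1 < w → ∃ t, (coll (P t) w) ^ 5 * w ^ 3 ≤ (4 ^ n) ^ 5) :
    ∃ S S' : Fin κ → Fin 30 → Finset (Fin n),
      v ∣ ∑ t, ∑ j, c t j * (xprod (P t) (S t j) * xprod (P t) (S' t j)) := by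
  classical
  have : NeZero v := ⟨hv.ne'⟩
  by_contra hcon
  push Not at hcon
  -- index type and configurations
  let I := Fin κ × Fin 30
  let Ω := I → Finset (Fin n) × Finset (Fin n)
  let Φ : Ω → ℕ := fun ω => ∑ i : I, c i.1 i.2 * (xprod (P i.1) (ω i).1 * xprod (P i.1) (ω i).2)
  have hΦ : ∀ ω : Ω, ((Φ ω : ℕ) : ZMod v) ≠ 0 := by
    intro ω h0
    rw [ZMod.natCast_eq_zero_iff] at h0
    refine hcon (fun t j => (ω (t, j)).1) (fun t j => (ω (t, j)).2) ?_
    have : Φ ω = ∑ t, ∑ j, c t j * (xprod (P t) (ω (t, j)).1 * xprod (P t) (ω (t, j)).2) := by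
      simp only [Φ, I, Fintype.sum_prod_type]
    rwa [← this]
  let F : ZMod v → ℂ := fun h => ∏ i : I, Tsum (P i.1) (c i.1 i.2) h
  have hF : ∀ h, F h = ∑ ω : Ω, (ZMod.stdAddChar (h * ((Φ ω : ℕ) : ZMod v)) : ℂ) := by
    intro h
    have h1 : ∀ i : I, Tsum (P i.1) (c i.1 i.2) h = ∑ p : Finset (Fin n) × Finset (Fin n),
        (ZMod.stdAddChar (h * ((c i.1 i.2 * (xprod (P i.1) p.1 * xprod (P i.1) p.2) : ℕ) :
          ZMod v)) : ℂ) := by
      intro i
      unfold Tsum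
      rw [Fintype.sum_prod_type]
    simp only [F]
    simp_rw [h1]
    rw [Fintype.prod_sum]
    refine Finset.sum_congr rfl fun ω _ => ?_
    simp only [Φ]
    rw [Nat.cast_sum, Finset.mul_sum]
    induction (univ : Finset I) using Finset.induction_on with
    | empty => simp
    | insert a s ha ih =>
      rw [Finset.prod_insert ha, Finset.sum_insert ha, AddChar.map_add_eq_mul, ih]
  have hsum : ∑ h, F h = 0 := by
    simp_rw [hF]
    rw [Finset.sum_comm]
    refine Finset.sum_eq_zero fun ω _ => ?_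
    rw [AddChar.sum_mulShift _ (ZMod.isPrimitive_stdAddChar v), if_neg (hΦ ω)]
    simp
  -- the zero frequency
  set M : ℝ := (4 : ℝ) ^ n with hM
  have hMpos : 0 < M := by positivity
  have hF0 : F 0 = ((M ^ (30 * κ) : ℝ) : ℂ) := by
    have : ∀ i : I, Tsum (P i.1) (c i.1 i.2) (0 : ZMod v) = (M : ℂ) := by
      intro i
      unfold Tsum
      simp only [zero_mul, AddChar.map_zero_eq_one, Finset.sum_const, Finset.card_univ,
        Fintype.card_finset, Fintype.card_fin, nsmul_eq_mul, mul_one]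
      rw [hM]
      push_cast
      rw [← mul_pow]
      norm_num
    simp only [F, this, Finset.prod_const, Finset.card_univ, I, Fintype.card_prod,
      Fintype.card_fin]
    push_cast
    rw [mul_comm κ 30]
  -- the other frequencies
  have hFh : ∀ h : ZMod v, h ≠ 0 → ‖F h‖ ≤ M ^ (30 * κ) * (1 / ((addOrderOf h : ℝ)) ^ 3) := by
    intro h hh
    set w := addOrderOf h with hw
    have hw1 : 1 < w := by
      have h1 : w ≠ 1 := by rw [hw, Ne, AddMonoid.addOrderOf_eq_one_iff]; exact hh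
      have h3 : 0 < w := addOrderOf_pos h
      omega
    have hwv : w ∣ v := by
      have := addOrderOf_dvd_card (x := h)
      rwa [ZMod.card] at this
    obtain ⟨t, ht⟩ := hcoll w hwv hw1
    have hwpos : (0 : ℝ) < w := by exact_mod_cast (by omega : 0 < w)
    have hT : ∀ j, ‖Tsum (P t) (c t j) h‖ ^ 10 ≤ M ^ 10 / w := by
      intro j
      have h1 := Tsum_sq_le (P t) (hc t j) h
      rw [← hw] at h1
      have h2 : ((coll (P t) w : ℝ)) ^ 5 * (w : ℝ) ^ 3 ≤ M ^ 5 := by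
        rw [hM]; exact_mod_cast ht
      rw [le_div_iff₀ hwpos]
      calc ‖Tsum (P t) (c t j) h‖ ^ 10 * w = (‖Tsum (P t) (c t j) h‖ ^ 2) ^ 5 * w := by ring
        _ ≤ ((w : ℝ) * (coll (P t) w : ℝ) ^ 2) ^ 5 * w := by gcongr
        _ = ((coll (P t) w : ℝ) ^ 5 * (w : ℝ) ^ 3) ^ 2 := by ring
        _ ≤ (M ^ 5) ^ 2 := by gcongr
        _ = M ^ 10 := by ring
    have hprod : ∏ j : Fin 30, ‖Tsum (P t) (c t j) h‖ ≤ M ^ 30 * (1 / (w : ℝ) ^ 3) := by
      have h1 : (∏ j : Fin 30, ‖Tsum (P t) (c t j) h‖) ^ 10 ≤ (M ^ 30 * (1 / (w : ℝ) ^ 3)) ^ 10 := by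
        rw [← Finset.prod_pow]
        calc ∏ j : Fin 30, ‖Tsum (P t) (c t j) h‖ ^ 10 ≤ ∏ _j : Fin 30, (M ^ 10 / w) :=
              Finset.prod_le_prod (fun j _ => by positivity) (fun j _ => hT j)
          _ = (M ^ 10 / w) ^ 30 := by
              rw [Finset.prod_const, Finset.card_univ, Fintype.card_fin]
          _ = (M ^ 30 * (1 / (w : ℝ) ^ 3)) ^ 10 := by ring
      exact (pow_le_pow_iff_left₀ (Finset.prod_nonneg fun j _ => norm_nonneg _) (by positivity)
        (by norm_num)).1 h1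
    simp only [F]
    rw [norm_prod, Fintype.prod_prod_type]
    dsimp only
    rw [← Finset.mul_prod_erase univ _ (Finset.mem_univ t)]
    have hrest : ∏ s ∈ univ.erase t, ∏ j : Fin 30, ‖Tsum (P s) (c s j) h‖ ≤
        (M ^ 30) ^ (κ - 1) := by
      calc ∏ s ∈ univ.erase t, ∏ j : Fin 30, ‖Tsum (P s) (c s j) h‖ ≤
          ∏ _s ∈ univ.erase t, M ^ 30 := by
            refine Finset.prod_le_prod (fun s _ => Finset.prod_nonneg fun j _ => norm_nonneg _)
              fun s _ => ?_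
            calc ∏ j : Fin 30, ‖Tsum (P s) (c s j) h‖ ≤ ∏ _j : Fin 30, M :=
                  Finset.prod_le_prod (fun j _ => norm_nonneg _) fun j _ => norm_Tsum_le _ _ _
              _ = M ^ 30 := by simp
        _ = (M ^ 30) ^ (κ - 1) := by
            rw [Finset.prod_const, Finset.card_erase_of_mem (Finset.mem_univ t), Finset.card_univ,
              Fintype.card_fin]
    have hκ : 1 ≤ κ := by
      have := t.pos
      omega
    calc (∏ j : Fin 30, ‖Tsum (P t) (c t j) h‖) *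
          ∏ s ∈ univ.erase t, ∏ j : Fin 30, ‖Tsum (P s) (c s j) h‖
          ≤ (M ^ 30 * (1 / (w : ℝ) ^ 3)) * (M ^ 30) ^ (κ - 1) := by
            gcongr
      _ = M ^ (30 * κ) * (1 / (w : ℝ) ^ 3) := by
            obtain ⟨k, rfl⟩ : ∃ k, κ = k + 1 := ⟨κ - 1, by omega⟩
            simp only [Nat.add_sub_cancel]
            ring
  -- contradiction
  have h0 : F 0 = -∑ h ∈ univ.erase (0 : ZMod v), F h := by
    rw [← Finset.add_sum_erase univ F (Finset.mem_univ (0 : ZMod v))] at hsum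
    linear_combination hsum
  have h1 : M ^ (30 * κ) ≤ ∑ h ∈ univ.erase (0 : ZMod v),
      M ^ (30 * κ) * (1 / ((addOrderOf h : ℝ)) ^ 3) := by
    calc M ^ (30 * κ) = ‖F 0‖ := by
          rw [hF0, Complex.norm_real, Real.norm_of_nonneg (by positivity)]
      _ = ‖∑ h ∈ univ.erase (0 : ZMod v), F h‖ := by rw [h0, norm_neg]
      _ ≤ ∑ h ∈ univ.erase (0 : ZMod v), ‖F h‖ := norm_sum_le _ _
      _ ≤ _ := Finset.sum_le_sum fun h hh => hFh h (Finset.mem_erase.1 hh).1
  rw [← Finset.mul_sum] at h1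
  have h2 := sum_inv_cube_lt_one v
  have h3 : 0 < M ^ (30 * κ) := by positivity
  nlinarith

/-- C4: if for every divisor `w > 1` of the odd number `v` one of the families has few collisions
mod `w`, then `v` divides a sum of divisors. -/
theorem fourier_core {n κ : ℕ} (P : Fin κ → Fin n → ℕ) (v : ℕ) (hv : Odd v)
    (hcoll : ∀ w, w ∣ v → 1 < w → ∃ t, (coll (P t) w : ℝ) ≤ 4 ^ n * (w : ℝ) ^ (-(3 / 5 : ℝ))) :
    ∃ A B : Fin κ → Fin 30 → Finset (Fin n),
      v ∣ ∑ t : Fin κ, ∑ j : Fin 30, 4 ^ (t.val * 30 + j.val) *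
        (xprod (P t) (A t j) * xprod (P t) (B t j)) := by
  refine fourier P (fun t j => 4 ^ (t.val * 30 + j.val)) hv.pos (fun t j => ?_) ?_
  · have h2 : Nat.Coprime 2 v := (Nat.coprime_two_left).2 hv
    have h4 : Nat.Coprime 4 v := by
      have : (4 : ℕ) = 2 ^ 2 := by norm_num
      rw [this]
      exact Nat.Coprime.pow_left 2 h2
    exact Nat.Coprime.pow_left _ h4
  · intro w hw h1
    obtain ⟨t, ht⟩ := hcoll w hw h1
    refine ⟨t, ?_⟩
    have hwpos : (0 : ℝ) < w := by exact_mod_cast (by omega : 0 < w)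
    have h5 : ((coll (P t) w : ℝ)) ^ 5 * (w : ℝ) ^ 3 ≤ (4 ^ n) ^ 5 := by
      calc ((coll (P t) w : ℝ)) ^ 5 * (w : ℝ) ^ 3
          ≤ (4 ^ n * (w : ℝ) ^ (-(3 / 5 : ℝ))) ^ 5 * (w : ℝ) ^ 3 := by gcongr
        _ = (4 ^ n) ^ 5 * (((w : ℝ) ^ (-(3 / 5 : ℝ))) ^ 5 * (w : ℝ) ^ 3) := by ring
        _ = (4 ^ n) ^ 5 := by
            rw [← Real.rpow_natCast ((w : ℝ) ^ (-(3 / 5 : ℝ))) 5, ← Real.rpow_mul hwpos.le,
              ← Real.rpow_natCast (w : ℝ) 3, ← Real.rpow_add hwpos]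
            norm_num
    exact_mod_cast h5

end Crest.Agent.R019
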