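import Crest.Agent.R019.Exist
import Crest.Agent.R019.Fourier

set_option autoImplicit false

namespace Crest.Agent.R019

open Finset

/-- Few large primes cannot hit every term of an arithmetic progression. -/
theorem exists_avoid {ι : Type*} [Fintype ι] (p : ι → ℕ) (hp : ∀ i, (p i).Prime) (J : ℕ)
    (hJ : ∀ i, J ≤ p i) (hcard : Fintype.card ι < J) (v0 D : ℕ) (hcop : v0.Coprime D) :
    ∃ j < J, ∀ i, ¬ p i ∣ v0 + j * D := by
  classical
  by_contra hcon
  push Not at hcon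
  have hJ0 : 0 < J := lt_of_le_of_lt (Nat.zero_le _) hcard
  have hne : Nonempty ι := ⟨(hcon 0 hJ0).choose⟩
  choose! f hf using hcon
  have hc : (Finset.univ : Finset ι).card < (Finset.range J).card := by
    simpa using hcard
  obtain ⟨x, hx, y, hy, hxy, hfxy⟩ := Finset.exists_ne_map_eq_of_card_lt_of_maps_to
    (f := f) hc (fun a _ => Finset.mem_univ _)
  rw [Finset.mem_range] at hx hy
  have h1 := hf x hx
  have h2 := hf y hy
  rw [← hfxy] at h2
  have hprime := hp (f x)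
  -- `p` does not divide `D`
  have hD : ¬ p (f x) ∣ D := by
    intro hdvd
    have h3 : p (f x) ∣ v0 := (Nat.dvd_add_left (hdvd.mul_left x)).1 h1
    exact hprime.one_lt.ne' (Nat.dvd_one.1 (hcop ▸ Nat.dvd_gcd h3 hdvd))
  have hJp := hJ (f x)
  have key : ∀ a b : ℕ, a < b → b < J → p (f x) ∣ v0 + a * D → p (f x) ∣ v0 + b * D → False := by
    intro a b hab hb ha' hb'
    have h4 : p (f x) ∣ (v0 + b * D) - (v0 + a * D) := Nat.dvd_sub hb' ha'
    have h5 : (v0 + b * D) - (v0 + a * D) = (b - a) * D := by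
      rw [Nat.sub_mul]; omega
    rw [h5] at h4
    rcases hprime.dvd_mul.1 h4 with h6 | h6
    · have := Nat.le_of_dvd (by omega) h6
      omega
    · exact hD h6
  rcases lt_or_gt_of_ne hxy with h | h
  · exact key x y h hy h1 h2
  · exact key y x h hx h2 h1

/-- elementary growth estimate -/
theorem growth (m : ℕ) (hm : 17 ≤ m) : 10 * (200 * (m + 1)) + 2 ≤ 2 ^ m := by
  induction m, hm using Nat.le_induction with
  | base => norm_num
  | succ k hk ih =>
    rw [pow_succ]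
    omega

/-- The numerators that are allowed. -/
def Good (n : ℕ) (P : Fin 10 → Fin n → ℕ) (v : ℕ) : Prop :=
  0 < v ∧ v ≤ 2 ^ (n / 4) ∧ v.Coprime (primorial (n / 200)) ∧ ∀ t i, ¬ P t i ∣ v

theorem prime_le_of_dvd_good {n : ℕ} {P : Fin 10 → Fin n → ℕ} {v : ℕ} (hv : Good n P v) (p : ℕ)
    (hp : p.Prime) (hpv : p ∣ v) : n / 200 < p := by
  by_contra h
  push Not at h
  have h1 : p ∣ primorial (n / 200) := by
    unfold primorial
    exact Finset.dvd_prod_of_mem _ (by simp [hp]; omega)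
  exact hp.one_lt.ne' (Nat.dvd_one.1 (hv.2.2.1 ▸ Nat.dvd_gcd hpv h1))

theorem good_odd {n : ℕ} (hn : 400 ≤ n) {P : Fin 10 → Fin n → ℕ} {v : ℕ} (hv : Good n P v) :
    Odd v := by
  rw [← Nat.not_even_iff_odd, even_iff_two_dvd]
  intro h
  have := prime_le_of_dvd_good hv 2 Nat.prime_two h
  omega

theorem odd_xprod {n : ℕ} (P : Fin n → ℕ) (hP : ∀ i, Odd (P i)) (S : Finset (Fin n)) :
    Odd (xprod P S) := by
  unfold xprod
  exact Finset.prod_induction _ (fun x => Odd x) (fun a b ha hb => ha.mul hb) odd_one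
    (fun i _ => hP i)

theorem xprod_dvd {n : ℕ} (P : Fin n → ℕ) (S : Finset (Fin n)) : xprod P S ∣ ∏ i, P i :=
  Finset.prod_dvd_prod_of_subset _ _ _ (Finset.subset_univ S)

theorem padic_four_mul_odd (k u : ℕ) (hu : Odd u) : padicValNat 2 (4 ^ k * u) = 2 * k := by
  have hu0 : u ≠ 0 := by rintro rfl; exact absurd hu (by decide)
  rw [padicValNat.mul (by positivity) hu0, show (4 : ℕ) = 2 ^ 2 by norm_num, ← pow_mul,
    padicValNat.prime_pow, padicValNat.eq_zero_of_not_dvd hu.not_two_dvd_nat, add_zero]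

theorem rep_general {n κ m : ℕ} (P : Fin κ → Fin n → ℕ) (hPodd : ∀ t i, Odd (P t i)) (v : ℕ)
    (A B : Fin κ → Fin m → Finset (Fin n))
    (hAB : v ∣ ∑ t : Fin κ, ∑ j : Fin m, 4 ^ (t.val * m + j.val) *
        (xprod (P t) (A t j) * xprod (P t) (B t j))) :
    ∃ e : Fin (κ * m) → ℕ, (∀ k, e k ∣ 4 ^ (κ * m) * ∏ t, (∏ i, P t i) ^ 2) ∧
      (∀ k, padicValNat 2 (e k) = 2 * k) ∧ v ∣ ∑ k, e k := by
  refine ⟨fun k => 4 ^ k.val * (xprod (P (finProdFinEquiv.symm k).1)
    (A (finProdFinEquiv.symm k).1 (finProdFinEquiv.symm k).2) *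
    xprod (P (finProdFinEquiv.symm k).1)
    (B (finProdFinEquiv.symm k).1 (finProdFinEquiv.symm k).2)), ?_, ?_, ?_⟩
  · intro k
    refine Nat.mul_dvd_mul (pow_dvd_pow 4 k.2.le) ?_
    refine dvd_trans ?_ (Finset.dvd_prod_of_mem _
      (Finset.mem_univ (finProdFinEquiv.symm k).1))
    rw [sq]
    exact Nat.mul_dvd_mul (xprod_dvd _ _) (xprod_dvd _ _)
  · intro k
    exact padic_four_mul_odd _ _ ((odd_xprod _ (hPodd _) _).mul (odd_xprod _ (hPodd _) _))
  · have hsum : ∑ t : Fin κ, ∑ j : Fin m, 4 ^ (t.val * m + j.val) *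
        (xprod (P t) (A t j) * xprod (P t) (B t j)) =
        ∑ k : Fin (κ * m), 4 ^ k.val * (xprod (P (finProdFinEquiv.symm k).1)
        (A (finProdFinEquiv.symm k).1 (finProdFinEquiv.symm k).2) *
        xprod (P (finProdFinEquiv.symm k).1)
        (B (finProdFinEquiv.symm k).1 (finProdFinEquiv.symm k).2)) := by
      rw [← Fintype.sum_prod_type']
      refine Fintype.sum_equiv finProdFinEquiv _ _ fun q => ?_
      rw [Equiv.symm_apply_apply]
      congr 2
      simp only [finProdFinEquiv_apply_val]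
      ring
    rw [← hsum]
    exact hAB

/-- Density of good numbers. -/
theorem dense_general {n : ℕ} (P : Fin 10 → Fin n → ℕ) (hJle : 10 * n + 2 ≤ 2 ^ (n / 200))
    (hP0le : primorial (n / 200) ≤ 2 ^ (n / 100)) (hn : n / 200 + n / 100 ≤ n / 64)
    (havoid : ∀ v0 D : ℕ, v0.Coprime D → ∃ j < 10 * n + 1, ∀ t i, ¬ P t i ∣ v0 + j * D)
    (x : ℕ) (hx1 : 2 ^ (n / 64) ≤ x) (hx2 : x ≤ 2 ^ (n / 4)) :
    ∃ v, Good n P v ∧ v ≤ x ∧ x < v + 2 ^ (n / 64) := by
  have hP0pos : 0 < primorial (n / 200) := primorial_pos _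
  have hG : (10 * n + 2) * primorial (n / 200) ≤ 2 ^ (n / 64) := by
    calc (10 * n + 2) * primorial (n / 200) ≤ 2 ^ (n / 200) * 2 ^ (n / 100) :=
          Nat.mul_le_mul hJle hP0le
      _ = 2 ^ (n / 200 + n / 100) := by rw [pow_add]
      _ ≤ 2 ^ (n / 64) := Nat.pow_le_pow_right (by norm_num) hn
  have hxbig := hG.trans hx1
  unfold Good
  generalize primorial (n / 200) = P0 at *
  generalize 2 ^ (n / 64) = G at *
  generalize 2 ^ (n / 4) = Y at *
  -- start of the progression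
  obtain ⟨X, hX⟩ : ∃ X, X = x - 10 * n * P0 := ⟨_, rfl⟩
  have hmul : (10 * n + 2) * P0 = 10 * n * P0 + (P0 + P0) := by ring
  have hXbig : P0 + P0 ≤ X := by omega
  obtain ⟨v0, hv0⟩ : ∃ v0, v0 = P0 * ((X - 1) / P0) + 1 := ⟨_, rfl⟩
  have hv0le : v0 ≤ X := by
    have := Nat.mul_div_le (X - 1) P0
    omega
  have hv0gt : X < v0 + P0 := by
    have := Nat.lt_mul_div_succ (X - 1) hP0pos
    have h2 : P0 * ((X - 1) / P0 + 1) = P0 * ((X - 1) / P0) + P0 := by ring
    omega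
  have hcop : v0.Coprime P0 := by
    rw [hv0]
    simp
  obtain ⟨j, hj, hjP⟩ := havoid v0 P0 hcop
  have hjP0 : j * P0 ≤ 10 * n * P0 := Nat.mul_le_mul_right _ (by omega)
  refine ⟨v0 + j * P0, ⟨by omega, by omega, ?_, hjP⟩, by omega, by omega⟩
  simpa using hcop

/-- Final adjustment: `t * q - 1` can be made good. -/
theorem fin_general {n s : ℕ} (hs : 0 < s) (P : Fin 10 → Fin n → ℕ)
    (hsize : 4 ^ s * primorial (n / 200) * (10 * n + 1) * 2 ^ (n / 8) ≤ 2 ^ (n / 4))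
    (havoid : ∀ v0 D : ℕ, v0.Coprime D → ∃ j < 10 * n + 1, ∀ t i, ¬ P t i ∣ v0 + j * D)
    (q : ℕ) (hq1 : 1 ≤ q) (hq2 : q ≤ 2 ^ (n / 8)) :
    ∃ t, 0 < t ∧ 4 ^ s ∣ t ∧ 1 < t * q ∧ Good n P (t * q - 1) := by
  have hP0pos : 0 < primorial (n / 200) := primorial_pos _
  have hF : 4 ≤ 4 ^ s := by
    calc 4 = 4 ^ 1 := by norm_num
      _ ≤ 4 ^ s := Nat.pow_le_pow_right (by norm_num) hs
  unfold Good
  generalize primorial (n / 200) = P0 at *
  generalize 2 ^ (n / 8) = G at *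
  generalize 2 ^ (n / 4) = Y at *
  generalize 4 ^ s = F at *
  have hFpos : 0 < F := by omega
  have hpos : 0 < F * P0 * q := by positivity
  have hcop : (F * P0 * q - 1).Coprime (F * P0 * q) := by
    obtain ⟨m, hm⟩ : ∃ m, F * P0 * q = m + 1 := ⟨_, (Nat.succ_pred_eq_of_pos hpos).symm⟩
    rw [hm]
    simp
  obtain ⟨j, hj, hjP⟩ := havoid _ _ hcop
  have heq : F * P0 * (j + 1) * q - 1 = F * P0 * q - 1 + j * (F * P0 * q) := by
    have : F * P0 * (j + 1) * q = F * P0 * q + j * (F * P0 * q) := by ring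
    omega
  have hbig : 4 ≤ F * P0 * (j + 1) * q := by
    calc 4 ≤ F := hF
      _ ≤ F * (P0 * (j + 1) * q) := Nat.le_mul_of_pos_right _ (by positivity)
      _ = F * P0 * (j + 1) * q := by ring
  refine ⟨F * P0 * (j + 1), by positivity, ?_, by omega, by omega, ?_, ?_, ?_⟩
  · rw [mul_assoc]
    exact Dvd.intro _ rfl
  · refine (Nat.sub_le _ _).trans (le_trans ?_ hsize)
    gcongr
    omega
  · have hdvd : P0 ∣ F * P0 * (j + 1) * q := by
      refine Dvd.intro (F * (j + 1) * q) ?_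
      ring
    obtain ⟨m, hm⟩ : ∃ m, F * P0 * (j + 1) * q = m + 1 :=
      ⟨_, (Nat.succ_pred_eq_of_pos (by omega)).symm⟩
    rw [hm] at hdvd ⊢
    refine Nat.Coprime.coprime_dvd_right hdvd ?_
    simp
  · intro t i
    rw [heq]
    exact hjP t i

/-- Size of `Q`. -/
theorem size_general {n κ F : ℕ} (hn : 1 ≤ n) (P : Fin κ → Fin n → ℕ)
    (hPle : ∀ t i, P t i ≤ n ^ 60) (hF : F ≤ n ^ 600) :
    F * ∏ t, (∏ i, P t i) ^ 2 ≤ n ^ ((600 + 120 * κ) * n) := by
  have h1 : ∏ t, (∏ i, P t i) ^ 2 ≤ n ^ (120 * κ * n) := by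
    calc ∏ t : Fin κ, (∏ i, P t i) ^ 2 ≤ ∏ _t : Fin κ, ((n ^ 60) ^ n) ^ 2 := by
          refine Finset.prod_le_prod' fun t _ => ?_
          refine Nat.pow_le_pow_left ?_ 2
          calc ∏ i, P t i ≤ ∏ _i : Fin n, n ^ 60 := Finset.prod_le_prod' fun i _ => hPle t i
            _ = (n ^ 60) ^ n := by simp
      _ = n ^ (120 * κ * n) := by
          simp only [Finset.prod_const, Finset.card_univ, Fintype.card_fin, ← pow_mul]
          congr 1
          ring
  have h2 : F ≤ n ^ (600 * n) :=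
    hF.trans (Nat.pow_le_pow_right hn (Nat.le_mul_of_pos_right 600 hn))
  calc F * ∏ t, (∏ i, P t i) ^ 2 ≤ n ^ (600 * n) * n ^ (120 * κ * n) := Nat.mul_le_mul h2 h1
    _ = n ^ ((600 + 120 * κ) * n) := by rw [← pow_add]; congr 1; ring

/-- The number-theoretic core. -/
theorem core : ∃ s A n0 : ℕ, 0 < s ∧ ∀ n ≥ n0, ∃ (Q : ℕ) (good : ℕ → Prop),
    CoreData s n Q good ∧ Q ≤ n ^ (A * n) := by
  obtain ⟨n1, hn1⟩ := exists_families
  obtain ⟨s, hs⟩ : ∃ s, s = 10 * 30 := ⟨_, rfl⟩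
  have hs0 : 0 < s := by omega
  refine ⟨s, 600 + 120 * 10, max n1 10000, hs0, fun n hn => ?_⟩
  have hn1' : n1 ≤ n := le_trans (le_max_left _ _) hn
  have hnbig : 10000 ≤ n := le_trans (le_max_right _ _) hn
  obtain ⟨P, hP, hcoll⟩ := hn1 n hn1'
  have hPpr : ∀ t i, (P t i).Prime := fun t i => (hP t i).1
  have hPbig : ∀ t i, n ^ 2 < P t i := fun t i => (hP t i).2.1
  have hPle : ∀ t i, P t i ≤ n ^ 60 := fun t i => (hP t i).2.2
  have hnn : 10 * n + 1 ≤ n ^ 2 := by nlinarith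
  have hPJ : ∀ t i, 10 * n + 1 ≤ P t i := fun t i => hnn.trans (hPbig t i).le
  have hPodd : ∀ t i, Odd (P t i) := fun t i =>
    (hPpr t i).odd_of_ne_two (by have := hPJ t i; omega)
  have havoid : ∀ v0 D : ℕ, v0.Coprime D → ∃ j < 10 * n + 1, ∀ t i, ¬ P t i ∣ v0 + j * D := by
    intro v0 D hcop
    obtain ⟨j, hj, h⟩ := exists_avoid (fun q : Fin 10 × Fin n => P q.1 q.2)
      (fun q => hPpr q.1 q.2) (10 * n + 1) (fun q => hPJ q.1 q.2) (by simp) v0 D hcop
    exact ⟨j, hj, fun t i => h (t, i)⟩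
  have hP0le : primorial (n / 200) ≤ 2 ^ (n / 100) := by
    refine (primorial_le_four_pow _).trans ?_
    rw [show (4 : ℕ) = 2 ^ 2 by norm_num, ← pow_mul]
    exact Nat.pow_le_pow_right (by norm_num) (by omega)
  have hJle : 10 * n + 2 ≤ 2 ^ (n / 200) := by
    have := growth (n / 200) (by omega)
    omega
  have h4s : 4 ^ s = 2 ^ 600 := by
    rw [show (4 : ℕ) = 2 ^ 2 by norm_num, ← pow_mul, hs]
  refine ⟨4 ^ s * ∏ t, (∏ i, P t i) ^ 2, Good n P, ?_, ?_⟩
  · constructor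
    · have h4 : 0 < 4 ^ s := pow_pos (by norm_num) s
      exact Nat.mul_pos h4 (Finset.prod_pos fun t _ => pow_pos
        (Finset.prod_pos fun i _ => (hPpr t i).pos) 2)
    · intro v hv
      exact good_odd (by omega) hv
    · intro v hv
      obtain ⟨A, B, hAB⟩ := fourier_core P v (good_odd (by omega) hv) (fun w hw hw1 => by
        have hwv : w ≤ v := Nat.le_of_dvd hv.1 hw
        have hz : n / 200 ≤ w := by
          have h1 := prime_le_of_dvd_good hv w.minFac (Nat.minFac_prime (by omega))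
            ((Nat.minFac_dvd w).trans hw)
          have h2 := Nat.minFac_le (n := w) (by omega)
          omega
        obtain ⟨t, ht⟩ := hcoll w hz (hwv.trans hv.2.1)
        rcases ht with ⟨i, hi⟩ | ht
        · exact absurd (hi.trans hw) (hv.2.2.2 t i)
        · exact ⟨t, ht⟩)
      subst hs
      exact rep_general P hPodd v A B hAB
    · intro x hx1 hx2
      exact dense_general P hJle hP0le (by omega) havoid x hx1 hx2
    · intro q hq1 hq2
      refine fin_general hs0 P ?_ havoid q hq1 hq2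
      rw [h4s]
      calc 2 ^ 600 * primorial (n / 200) * (10 * n + 1) * 2 ^ (n / 8)
          ≤ 2 ^ 600 * 2 ^ (n / 100) * 2 ^ (n / 200) * 2 ^ (n / 8) := by
            gcongr
            omega
        _ = 2 ^ (600 + n / 100 + n / 200 + n / 8) := by rw [pow_add, pow_add, pow_add]
        _ ≤ 2 ^ (n / 4) := Nat.pow_le_pow_right (by norm_num) (by omega)
  · refine size_general (by omega) P hPle ?_
    rw [h4s]
    exact Nat.pow_le_pow_left (by omega) _

end Crest.Agent.R019
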