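import Crest.Agent.R019.Defs

set_option autoImplicit false

namespace Crest.Agent.R019

open Finset

theorem card_prod_eq (Q : Finset ℕ) (hQ : ∀ p ∈ Q, p.Prime) (l N : ℕ) :
    ((Fintype.piFinset (fun _ : Fin l => Q)).filter (fun p => ∏ i, p i = N)).card
      ≤ l.factorial := by
  classical
  rcases Finset.eq_empty_or_nonempty
    ((Fintype.piFinset (fun _ : Fin l => Q)).filter (fun p => ∏ i, p i = N)) with h0 | ⟨p0, hp0⟩
  · rw [h0]; simp
  have key : ∀ p ∈ (Fintype.piFinset (fun _ : Fin l => Q)).filter (fun p => ∏ i, p i = N),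
      (List.ofFn p).Perm (Nat.primeFactorsList N) := by
    intro p hp
    rw [mem_filter, Fintype.mem_piFinset] at hp
    apply Nat.primeFactorsList_unique
    · rw [List.prod_ofFn]; exact hp.2
    · intro q hq
      rw [List.mem_ofFn] at hq
      obtain ⟨i, rfl⟩ := hq
      exact hQ _ (hp.1 i)
  have hlen : (Nat.primeFactorsList N).length = l := by
    rw [← (key p0 hp0).length_eq]; simp
  calc ((Fintype.piFinset (fun _ : Fin l => Q)).filter (fun p => ∏ i, p i = N)).card
      ≤ ((Nat.primeFactorsList N).permutations.toFinset).card := by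
        apply Finset.card_le_card_of_injOn (fun p => List.ofFn p)
        · intro p hp
          simp only [List.coe_toFinset, Set.mem_ofPred_eq, List.mem_permutations]
          exact key p (by simpa using hp)
        · intro p _ q _ h
          exact List.ofFn_injective h
    _ ≤ (Nat.primeFactorsList N).permutations.length := List.toFinset_card_le _
    _ = l.factorial := by rw [List.length_permutations, hlen]

/-- C1: tuples of primes with product in a given residue class. -/
theorem count_tuples (Q : Finset ℕ) (hQ : ∀ p ∈ Q, p.Prime) (y : ℕ) (hy : ∀ p ∈ Q, p ≤ y)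
    (l w : ℕ) (_hw : 0 < w) (u : ℕ) :
    ((Fintype.piFinset (fun _ : Fin l => Q)).filter
      (fun p => ∏ i, p i ≡ u [MOD w])).card ≤ l.factorial * (y ^ l / w + 1) := by
  classical
  set A := (Fintype.piFinset (fun _ : Fin l => Q)).filter (fun p => ∏ i, p i ≡ u [MOD w]) with hA
  have h1 : A.card ≤ l.factorial * (A.image (fun p => ∏ i, p i)).card := by
    apply Finset.card_le_mul_card_image
    intro N hN
    refine le_trans (Finset.card_le_card ?_) (card_prod_eq Q hQ l N)
    intro p hp
    rw [mem_filter] at hp ⊢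
    rw [hA, mem_filter] at hp
    exact ⟨hp.1.1, hp.2⟩
  have h2 : (A.image (fun p => ∏ i, p i)).card ≤ y ^ l / w + 1 := by
    rw [← Finset.card_range (y ^ l / w + 1)]
    apply Finset.card_le_card_of_injOn (fun N => N / w)
    · intro N hN
      simp only [coe_image, Set.mem_image, mem_coe] at hN
      obtain ⟨p, hp, rfl⟩ := hN
      rw [hA, mem_filter, Fintype.mem_piFinset] at hp
      simp only [coe_range, Set.mem_Iio]
      apply Nat.lt_succ_of_le
      apply Nat.div_le_div_right
      calc ∏ i, p i ≤ ∏ _i : Fin l, y := Finset.prod_le_prod' (fun i _ => hy _ (hp.1 i))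
        _ = y ^ l := by simp
    · intro N hN M hM h
      simp only [coe_image, Set.mem_image, mem_coe] at hN hM
      obtain ⟨p, hp, rfl⟩ := hN
      obtain ⟨q, hq, rfl⟩ := hM
      rw [hA, mem_filter] at hp hq
      have h3 : (∏ i, p i) % w = (∏ i, q i) % w := hp.2.trans hq.2.symm
      simp only at h
      rw [← Nat.div_add_mod (∏ i, p i) w, ← Nat.div_add_mod (∏ i, q i) w, h, h3]
  exact h1.trans (Nat.mul_le_mul_left _ h2)

theorem card_small_sets (n m : ℕ) :
    ((univ : Finset (Finset (Fin n))).filter (fun T => T.card ≤ m)).card ≤ (n + 1) ^ m := by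
  classical
  induction m with
  | zero =>
    simp only [Nat.le_zero, card_eq_zero, pow_zero]
    have : (univ.filter (fun T : Finset (Fin n) => T = ∅)) = {∅} := by
      ext T; simp
    rw [this]; simp
  | succ m ih =>
    have hsub : (univ.filter (fun T : Finset (Fin n) => T.card ≤ m + 1)) ⊆
        (univ.filter (fun T : Finset (Fin n) => T.card ≤ m)) ∪
        Finset.image₂ (fun a T => insert a T) (univ : Finset (Fin n))
          (univ.filter (fun T : Finset (Fin n) => T.card ≤ m)) := by
      intro T hT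
      simp only [mem_filter, mem_univ, true_and] at hT
      rw [mem_union]
      by_cases h : T.card ≤ m
      · left; simpa using h
      · right
        have hTc : T.card = m + 1 := by omega
        have hne : T.Nonempty := by rw [← Finset.card_pos]; omega
        obtain ⟨a, ha⟩ := hne
        rw [Finset.mem_image₂]
        refine ⟨a, mem_univ _, T.erase a, ?_, Finset.insert_erase ha⟩
        simp only [mem_filter, mem_univ, true_and]
        rw [Finset.card_erase_of_mem ha]; omega
    calc _ ≤ _ := Finset.card_le_card hsub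
      _ ≤ _ := Finset.card_union_le _ _
      _ ≤ (n + 1) ^ m + n * (n + 1) ^ m := by
        gcongr
        calc _ ≤ _ := Finset.card_image₂_le _ _ _
          _ ≤ _ := by
            rw [Finset.card_univ, Fintype.card_fin]
            exact Nat.mul_le_mul_left _ ih
      _ = (n + 1) ^ (m + 1) := by ring

/-- pairs with small differences -/
theorem card_close_pairs (n l : ℕ) :
    ((univ : Finset (Finset (Fin n) × Finset (Fin n))).filter
      (fun p => ¬ (l ≤ (p.1 \ p.2).card) ∧ ¬ (l ≤ (p.2 \ p.1).card))).card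
      ≤ 2 ^ n * (n + 1) ^ (2 * l) := by
  classical
  have h1 : ((univ : Finset (Finset (Fin n) × Finset (Fin n))).filter
      (fun p => ¬ (l ≤ (p.1 \ p.2).card) ∧ ¬ (l ≤ (p.2 \ p.1).card))).card ≤
      ((univ : Finset (Finset (Fin n))) ×ˢ
        ((univ : Finset (Finset (Fin n))).filter (fun T => T.card ≤ 2 * l))).card := by
    apply Finset.card_le_card_of_injOn (fun p => (p.1, symmDiff p.1 p.2))
    · intro p hp
      simp only [coe_filter, mem_univ, true_and, Set.mem_ofPred_eq] at hp
      simp only [coe_product, coe_univ, coe_filter, mem_univ, true_and, Set.mem_prod,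
        Set.mem_univ, Set.mem_ofPred_eq]
      have : (symmDiff p.1 p.2).card ≤ (p.1 \ p.2).card + (p.2 \ p.1).card := by
        rw [symmDiff_def]; exact Finset.card_union_le _ _
      omega
    · intro p _ q _ h
      simp only [Prod.mk.injEq] at h
      obtain ⟨h1, h2⟩ := h
      rw [h1] at h2
      exact Prod.ext h1 (symmDiff_right_injective _ h2)
  refine h1.trans ?_
  rw [Finset.card_product]
  have h2 : (univ : Finset (Finset (Fin n))).card = 2 ^ n := by simp
  rw [h2]
  exact Nat.mul_le_mul_left _ (card_small_sets n (2 * l))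

/-- for a fixed pair of subsets with `l ≤ |S \ S'|`, few tuples collide -/
theorem count_pair (Q : Finset ℕ) (hQ : ∀ p ∈ Q, p.Prime) (y : ℕ) (hy : ∀ p ∈ Q, p ≤ y)
    (n l w : ℕ) (hw : 1 < w) (S S' : Finset (Fin n)) (hS : l ≤ (S \ S').card) :
    ((Fintype.piFinset (fun _ : Fin n => Q)).filter
      (fun P => (∀ i, ¬ P i ∣ w) ∧ xprod P S ≡ xprod P S' [MOD w])).card
      ≤ Q.card ^ (n - l) * (l.factorial * (y ^ l / w + 1)) := by
  classical
  obtain ⟨T, hTS, hTc⟩ := Finset.exists_subset_card_eq hS
  set A := (Fintype.piFinset (fun _ : Fin n => Q)).filter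
      (fun P => (∀ i, ¬ P i ∣ w) ∧ xprod P S ≡ xprod P S' [MOD w]) with hA
  set ρ : (Fin n → ℕ) → ({i // i ∉ T} → ℕ) := fun P i => P i.1 with hρ
  have h1 : A.card ≤ (l.factorial * (y ^ l / w + 1)) * (A.image ρ).card := by
    apply Finset.card_le_mul_card_image
    intro g hg
    rw [Finset.mem_image] at hg
    obtain ⟨P0, hP0, rfl⟩ := hg
    rw [hA, mem_filter, Fintype.mem_piFinset] at hP0
    obtain ⟨hP0Q, hP0w, hP0c⟩ := hP0
    refine le_trans ?_ (count_tuples Q hQ y hy l w (by omega) (∏ i ∈ T, P0 i))
    apply Finset.card_le_card_of_injOn (fun P j => P (T.orderEmbOfFin hTc j))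
    · intro P hP
      simp only [coe_filter, Set.mem_ofPred_eq] at hP
      obtain ⟨hPA, hPρ⟩ := hP
      rw [hA, mem_filter, Fintype.mem_piFinset] at hPA
      obtain ⟨hPQ, hPw, hPc⟩ := hPA
      simp only [coe_filter, Set.mem_ofPred_eq, Fintype.mem_piFinset]
      refine ⟨fun j => hPQ _, ?_⟩
      have e1 : ∏ j : Fin l, P (T.orderEmbOfFin hTc j) = ∏ i ∈ T, P i := by
        conv_rhs => rw [← Finset.map_orderEmbOfFin_univ T hTc]
        rw [Finset.prod_map]; rfl
      rw [e1]
      have hoff : ∀ i, i ∉ T → P i = P0 i := fun i hi => congrFun hPρ ⟨i, hi⟩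
      have hTS1 : T ⊆ S := hTS.trans Finset.sdiff_subset
      have hTS2 : ∀ i ∈ S', i ∉ T := fun i hi hiT => (Finset.mem_sdiff.mp (hTS hiT)).2 hi
      have e2 : xprod P S' = xprod P0 S' :=
        Finset.prod_congr rfl (fun i hi => hoff i (hTS2 i hi))
      have e3 : xprod P S = (∏ i ∈ T, P i) * ∏ i ∈ S \ T, P0 i := by
        unfold xprod
        rw [← Finset.prod_sdiff hTS1, mul_comm]
        congr 1
        exact Finset.prod_congr rfl (fun i hi => hoff i (Finset.mem_sdiff.mp hi).2)
      have e4 : xprod P0 S = (∏ i ∈ T, P0 i) * ∏ i ∈ S \ T, P0 i := by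
        unfold xprod
        rw [← Finset.prod_sdiff hTS1, mul_comm]
      have hcop : Nat.gcd w (∏ i ∈ S \ T, P0 i) = 1 := by
        apply Nat.Coprime.prod_right
        intro i _
        exact ((Nat.Prime.coprime_iff_not_dvd (hQ _ (hP0Q i))).mpr (hP0w i)).symm
      have h5 : (∏ i ∈ T, P i) * ∏ i ∈ S \ T, P0 i ≡ (∏ i ∈ T, P0 i) * ∏ i ∈ S \ T, P0 i
          [MOD w] := by
        rw [← e3, ← e4]
        exact (hPc.trans (by rw [e2])).trans hP0c.symm
      exact Nat.ModEq.cancel_right_of_coprime hcop h5
    · intro P hP P' hP' h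
      simp only [coe_filter, Set.mem_ofPred_eq] at hP hP'
      funext i
      by_cases hi : i ∈ T
      · have : i ∈ Set.range (T.orderEmbOfFin hTc) := by
          rw [Finset.range_orderEmbOfFin]; exact hi
        obtain ⟨j, rfl⟩ := this
        exact congrFun h j
      · exact congrFun (hP.2.trans hP'.2.symm) ⟨i, hi⟩
  have h2 : (A.image ρ).card ≤ Q.card ^ (n - l) := by
    have : A.image ρ ⊆ Fintype.piFinset (fun _ : {i // i ∉ T} => Q) := by
      intro g hg
      rw [Finset.mem_image] at hg
      obtain ⟨P, hP, rfl⟩ := hg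
      rw [hA, mem_filter, Fintype.mem_piFinset] at hP
      rw [Fintype.mem_piFinset]
      exact fun i => hP.1 _
    refine (Finset.card_le_card this).trans ?_
    rw [Fintype.card_piFinset]
    simp only [prod_const]
    rw [Finset.card_univ, Fintype.card_subtype_compl]
    simp [hTc]
  calc A.card ≤ _ := h1
    _ ≤ (l.factorial * (y ^ l / w + 1)) * Q.card ^ (n - l) := Nat.mul_le_mul_left _ h2
    _ = _ := mul_comm _ _

/-- C2: average number of collisions. -/
theorem avg_coll (Q : Finset ℕ) (hQ : ∀ p ∈ Q, p.Prime) (y : ℕ) (hy : ∀ p ∈ Q, p ≤ y)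
    (n l w : ℕ) (hw : 1 < w) :
    ∑ P ∈ (Fintype.piFinset (fun _ : Fin n => Q)).filter (fun P => ∀ i, ¬ P i ∣ w), coll P w
      ≤ 4 ^ n * (Q.card ^ (n - l) * (l.factorial * (y ^ l / w + 1)))
        + 2 ^ n * (n + 1) ^ (2 * l) * Q.card ^ n := by
  classical
  set F := (Fintype.piFinset (fun _ : Fin n => Q)).filter (fun P => ∀ i, ¬ P i ∣ w) with hF
  have hswap : ∑ P ∈ F, coll P w = ∑ p : Finset (Fin n) × Finset (Fin n),
      (F.filter (fun P => xprod P p.1 ≡ xprod P p.2 [MOD w])).card := by
    unfold coll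
    simp_rw [Finset.card_filter]
    rw [Finset.sum_comm]
  rw [hswap]
  have hpt : ∀ p : Finset (Fin n) × Finset (Fin n),
      (F.filter (fun P => xprod P p.1 ≡ xprod P p.2 [MOD w])).card ≤
      Q.card ^ (n - l) * (l.factorial * (y ^ l / w + 1)) +
      (if ¬ (l ≤ (p.1 \ p.2).card) ∧ ¬ (l ≤ (p.2 \ p.1).card) then Q.card ^ n else 0) := by
    intro p
    rw [hF, Finset.filter_filter]
    by_cases h1 : l ≤ (p.1 \ p.2).card
    · exact (count_pair Q hQ y hy n l w hw p.1 p.2 h1).trans (Nat.le_add_right _ _)
    by_cases h2 : l ≤ (p.2 \ p.1).card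
    · refine le_trans (le_of_eq ?_)
        ((count_pair Q hQ y hy n l w hw p.2 p.1 h2).trans (Nat.le_add_right _ _))
      congr 1
      apply Finset.filter_congr
      intro P _
      exact and_congr_right (fun _ => ⟨Nat.ModEq.symm, Nat.ModEq.symm⟩)
    · rw [if_pos ⟨h1, h2⟩]
      refine le_trans ?_ (Nat.le_add_left _ _)
      refine (Finset.card_filter_le _ _).trans ?_
      rw [Fintype.card_piFinset]
      simp
  refine (Finset.sum_le_sum (fun p _ => hpt p)).trans ?_
  rw [Finset.sum_add_distrib]
  apply Nat.add_le_add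
  · rw [Finset.sum_const, smul_eq_mul]
    apply Nat.mul_le_mul_right
    rw [Finset.card_univ, Fintype.card_prod, Fintype.card_finset, Fintype.card_fin, ← mul_pow]
    norm_num
  · rw [← Finset.sum_filter, Finset.sum_const, smul_eq_mul]
    exact Nat.mul_le_mul_right _ (card_close_pairs n l)

end Crest.Agent.R019
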