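import Crest.Agent.R019.Count

set_option autoImplicit false

namespace Crest.Agent.R019

open Finset


/-- primes in `(n^2, n^60]` -/
def QP (n : ℕ) : Finset ℕ := (Finset.Ioc (n ^ 2) (n ^ 60)).filter Nat.Prime

theorem mem_QP {n p : ℕ} : p ∈ QP n ↔ p.Prime ∧ n ^ 2 < p ∧ p ≤ n ^ 60 := by
  unfold QP; rw [mem_filter, mem_Ioc]; tauto

theorem QP_card (n : ℕ) (hn : 2 ≤ n) :
    (n : ℝ) ^ 60 / (200 * Real.log n) ≤ (QP n).card := by
  have hn' : (2 : ℝ) ≤ n := by exact_mod_cast hn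
  have hlogn : 0 < Real.log n := Real.log_pos (by linarith)
  set y : ℝ := (n : ℝ) ^ 60 with hy
  have hy60 : (2 : ℝ) ^ 60 ≤ y := by rw [hy]; gcongr
  have hlogy : Real.log y = 60 * Real.log n := by rw [hy, Real.log_pow]; norm_num
  have h1 := Chebyshev.pi_ge (n ^ 60)
  push_cast at h1
  rw [← hy, hlogy] at h1
  have h2 : Nat.primeCounting (n ^ 60) ≤ (QP n).card + (n ^ 2 + 1) := by
    rw [← Nat.primesLE_card_eq_primeCounting]
    calc (Nat.primesLE (n ^ 60)).card ≤ (QP n ∪ Finset.range (n ^ 2 + 1)).card := by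
          apply Finset.card_le_card
          intro p hp
          rw [Nat.mem_primesLE] at hp
          rw [mem_union, mem_QP, mem_range]
          by_cases h : n ^ 2 < p
          · left; exact ⟨hp.2, h, hp.1⟩
          · right; omega
      _ ≤ _ := Finset.card_union_le _ _
      _ = _ := by rw [Finset.card_range]
  have h2' : (Nat.primeCounting (n ^ 60) : ℝ) ≤ (QP n).card + ((n : ℝ) ^ 2 + 1) := by
    exact_mod_cast h2
  have hlog1 : Real.log (y + 1) ≤ y / 100 := by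
    have hpos : 0 < y + 1 := by linarith [hy60]
    have h3 : Real.log (y + 1) = 2 * Real.log (Real.sqrt (y + 1)) := by
      rw [Real.log_sqrt hpos.le]; ring
    have h4 : Real.log (Real.sqrt (y + 1)) ≤ Real.sqrt (y + 1) :=
      (Real.log_le_sub_one_of_pos (Real.sqrt_pos.mpr hpos)).trans (by linarith)
    have h5 : Real.sqrt (y + 1) ≤ y / 200 := by
      rw [Real.sqrt_le_left (by linarith [hy60, pow_pos (by norm_num : (0:ℝ) < 2) 60])]
      nlinarith [hy60]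
    rw [h3]; linarith
  have hlogle : Real.log n ≤ n := (Real.log_le_sub_one_of_pos (by linarith)).trans (by linarith)
  have h6 : ((n : ℝ) ^ 2 + 1) * (60 * Real.log n) ≤ y / 100 := by
    have : ((n : ℝ) ^ 2 + 1) ≤ 2 * (n : ℝ) ^ 2 := by nlinarith
    calc ((n : ℝ) ^ 2 + 1) * (60 * Real.log n) ≤ (2 * (n : ℝ) ^ 2) * (60 * n) := by gcongr
      _ = 120 * (n : ℝ) ^ 3 := by ring
      _ ≤ (2 : ℝ) ^ 57 / 100 * (n : ℝ) ^ 3 := by gcongr; norm_num
      _ ≤ (n : ℝ) ^ 57 / 100 * (n : ℝ) ^ 3 := by gcongr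
      _ = y / 100 := by rw [hy]; ring
  have hlog2 : (0.69 : ℝ) < Real.log 2 := by linarith [Real.log_two_gt_d9]
  rw [div_le_iff₀ (by positivity)] at h1 ⊢
  nlinarith [hy60]


theorem exists_avoid_tuple {α : Type*} [DecidableEq α] (Ω : Finset α) (W : Finset ℕ)
    (bad : ℕ → Finset α)
    (h : ∑ w ∈ W, (bad w).card ^ 10 < Ω.card ^ 10) :
    ∃ P : Fin 10 → α, (∀ t, P t ∈ Ω) ∧ ∀ w ∈ W, ∃ t, P t ∉ bad w := by
  by_contra hcon
  push Not at hcon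
  have hsub : Fintype.piFinset (fun _ : Fin 10 => Ω) ⊆
      W.biUnion (fun w => Fintype.piFinset (fun _ : Fin 10 => bad w)) := by
    intro P hP
    rw [Fintype.mem_piFinset] at hP
    obtain ⟨w, hw, hb⟩ := hcon P hP
    rw [mem_biUnion]
    exact ⟨w, hw, by rw [Fintype.mem_piFinset]; exact hb⟩
  have h1 := (Finset.card_le_card hsub).trans Finset.card_biUnion_le
  simp only [Fintype.card_piFinset, prod_const, card_univ, Fintype.card_fin] at h1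
  omega

theorem sum_inv_cube (N : ℕ) (hN : 1 ≤ N) :
    ∑ w ∈ Finset.Icc 2 N, (1 : ℝ) / (w : ℝ) ^ 3 ≤ 1 / 2 * (1 - 1 / N) := by
  induction N, hN using Nat.le_induction with
  | base => simp
  | succ N hN ih =>
    rw [Finset.sum_Icc_succ_top (by omega)]
    have hN' : (1 : ℝ) ≤ N := by exact_mod_cast hN
    have : (1 : ℝ) / ((N + 1 : ℕ) : ℝ) ^ 3 ≤ 1 / 2 * (1 / N - 1 / ((N + 1 : ℕ) : ℝ)) := by
      push_cast
      rw [div_sub_div _ _ (by positivity) (by positivity), ← mul_div_assoc,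
        div_le_div_iff₀ (by positivity) (by positivity)]
      nlinarith [pow_pos (by linarith : (0 : ℝ) < N + 1) 2]
    push_cast at this ⊢
    linarith

theorem sum_inv_cube_lt (a N : ℕ) (ha : 2 ≤ a) :
    ∑ w ∈ Finset.Icc a N, (1 : ℝ) / (w : ℝ) ^ 3 < 1 := by
  have h1 : ∑ w ∈ Finset.Icc a N, (1 : ℝ) / (w : ℝ) ^ 3 ≤
      ∑ w ∈ Finset.Icc 2 (N + 1), (1 : ℝ) / (w : ℝ) ^ 3 := by
    apply Finset.sum_le_sum_of_subset_of_nonneg
    · intro w hw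
      rw [mem_Icc] at hw ⊢
      omega
    · intro i _ _; positivity
  have h2 := sum_inv_cube (N + 1) (by omega)
  have h3 : (0 : ℝ) < 1 / ((N + 1 : ℕ) : ℝ) := by positivity
  linarith


/-- choice of the number of primes used for the modulus `w` -/
theorem choose_l (n w : ℕ) (hn : 1000 ≤ n) (hw1 : n / 200 ≤ w) (hw2 : w ≤ 2 ^ (n / 4)) :
    ∃ l, 1 ≤ l ∧ l ≤ n ∧ w ≤ (n ^ 60) ^ l ∧ (n ^ 4) ^ (l - 1) ≤ w ∧
      (l = 1 ∨ (n ^ 30) ^ l ≤ w) := by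
  have hw5 : 5 ≤ w := le_trans (by omega) hw1
  have hy1 : 1 < n ^ 60 := Nat.one_lt_pow (by norm_num) (by omega)
  have hl1 : 1 ≤ Nat.clog (n ^ 60) w := Nat.clog_pos hy1 (by omega)
  have hpow : w ≤ (n ^ 60) ^ (Nat.clog (n ^ 60) w) := Nat.le_pow_clog hy1 w
  have hlt : (n ^ 60) ^ (Nat.clog (n ^ 60) w - 1) < w := Nat.pow_pred_clog_lt_self hy1 (by omega)
  set l := Nat.clog (n ^ 60) w with hl
  refine ⟨l, hl1, ?_, hpow, ?_, ?_⟩
  · have h2 : 2 ^ (l - 1) < 2 ^ (n / 4) := by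
      calc 2 ^ (l - 1) ≤ (n ^ 60) ^ (l - 1) := Nat.pow_le_pow_left (by omega) _
        _ < w := hlt
        _ ≤ _ := hw2
    have h3 : l - 1 < n / 4 := (Nat.pow_lt_pow_iff_right (by norm_num)).mp h2
    omega
  · refine le_trans ?_ hlt.le
    apply Nat.pow_le_pow_left
    exact Nat.pow_le_pow_right (by omega) (by norm_num)
  · by_cases h1 : l = 1
    · left; exact h1
    · right
      refine le_trans ?_ hlt.le
      rw [← pow_mul, ← pow_mul]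
      apply Nat.pow_le_pow_right (by omega)
      omega

theorem param_ineq (n w q : ℕ) (hn : 1000 ≤ n) (hq : 0 < q)
    (hlog : 1600 * Real.log n ≤ (n : ℝ) ^ (1 / 10 : ℝ))
    (h2n : 2 * n ^ 4 * 2 ^ (n / 4) * 2 ^ (n / 4) ≤ 2 ^ n)
    (hqc : (n : ℝ) ^ 60 / (200 * Real.log n) ≤ q)
    (hw1 : n / 200 ≤ w) (hw2 : w ≤ 2 ^ (n / 4)) :
    ∃ l, l ≤ n ∧
      ((4 ^ n * (q ^ (n - l) * (l.factorial * ((n ^ 60) ^ l / w + 1)))
        + 2 ^ n * (n + 1) ^ (2 * l) * q ^ n : ℕ) : ℝ) ≤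
      4 ^ n * (q : ℝ) ^ n * (w : ℝ) ^ (-(9 / 10) : ℝ) := by
  obtain ⟨l, hl1, hln, hwy, hn4, hcase⟩ := choose_l n w hn hw1 hw2
  refine ⟨l, hln, ?_⟩
  have hw5 : 5 ≤ w := le_trans (by omega) hw1
  have hwpos : (0 : ℝ) < w := by exact_mod_cast (by omega : 0 < w)
  have hw1' : (1 : ℝ) ≤ w := by exact_mod_cast (by omega : 1 ≤ w)
  have hqpos : (0 : ℝ) < q := by exact_mod_cast hq
  have hn' : (1000 : ℝ) ≤ n := by exact_mod_cast hn
  have hlogn : 0 < Real.log n := Real.log_pos (by linarith)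
  have hlogle : Real.log n ≤ n := (Real.log_le_sub_one_of_pos (by linarith)).trans (by linarith)
  set lam : ℝ := 200 * Real.log n with hlam
  have hlampos : 0 < lam := by positivity
  have hyq : (n : ℝ) ^ 60 ≤ q * lam := by
    rwa [div_le_iff₀ hlampos] at hqc
  -- the main claim
  have hclaim : 4 * ((l : ℝ) * lam) ^ l ≤ (w : ℝ) ^ (1 / 10 : ℝ) := by
    rcases hcase with rfl | h30
    · simp only [Nat.cast_one, one_mul, pow_one]
      have hw400 : (n : ℝ) / 400 ≤ w := by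
        have : n ≤ 400 * w := by omega
        have : (n : ℝ) ≤ 400 * w := by exact_mod_cast this
        linarith
      calc 4 * lam = 1600 * Real.log n / 2 := by rw [hlam]; ring
        _ ≤ (n : ℝ) ^ (1 / 10 : ℝ) / 2 := by gcongr
        _ ≤ ((n : ℝ) / 400) ^ (1 / 10 : ℝ) := by
          rw [Real.div_rpow (by positivity) (by norm_num)]
          gcongr
          calc (400 : ℝ) ^ (1 / 10 : ℝ) ≤ (2 ^ (10 : ℕ)) ^ (1 / 10 : ℝ) := by
                gcongr; norm_num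
            _ = 2 := by
              rw [← Real.rpow_natCast, ← Real.rpow_mul (by norm_num)]; norm_num
        _ ≤ (w : ℝ) ^ (1 / 10 : ℝ) := by gcongr
    · have h3 : ((n : ℝ) ^ 3) ^ l ≤ (w : ℝ) ^ (1 / 10 : ℝ) := by
        have e : ((n : ℝ) ^ 3) ^ l = (((n : ℝ) ^ 30) ^ l) ^ (1 / 10 : ℝ) := by
          rw [← pow_mul, ← pow_mul, ← Real.rpow_natCast, ← Real.rpow_natCast, ← Real.rpow_mul (by positivity)]
          congr 1
          push_cast
          ring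
        rw [e]
        gcongr
        exact_mod_cast h30
      refine le_trans ?_ h3
      have h4 : (4 : ℝ) ≤ 4 ^ l := by
        calc (4 : ℝ) = 4 ^ 1 := by norm_num
          _ ≤ 4 ^ l := pow_le_pow_right₀ (by norm_num) hl1
      calc 4 * ((l : ℝ) * lam) ^ l ≤ 4 ^ l * ((l : ℝ) * lam) ^ l := by gcongr
        _ = (4 * ((l : ℝ) * lam)) ^ l := by rw [← mul_pow]
        _ ≤ ((n : ℝ) ^ 3) ^ l := by
          gcongr
          have hl' : (l : ℝ) ≤ n := by exact_mod_cast hln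
          calc 4 * ((l : ℝ) * lam) ≤ 4 * ((n : ℝ) * (200 * n)) := by
                rw [hlam]; gcongr
            _ = 800 * (n : ℝ) ^ 2 := by ring
            _ ≤ n * (n : ℝ) ^ 2 := by gcongr; linarith
            _ = (n : ℝ) ^ 3 := by ring
  -- first part
  have hA : (l.factorial : ℝ) * ((((n ^ 60) ^ l / w : ℕ) : ℝ) + 1) ≤
      (q : ℝ) ^ l * (1 / 2 * (w : ℝ) ^ (-(9 / 10) : ℝ)) := by
    have hf : (l.factorial : ℝ) ≤ (l : ℝ) ^ l := by exact_mod_cast Nat.factorial_le_pow l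
    have hd : (((n ^ 60) ^ l / w : ℕ) : ℝ) ≤ ((n : ℝ) ^ 60) ^ l / w := by
      have := @Nat.cast_div_le ℝ _ _ _ ((n ^ 60) ^ l) w
      push_cast at this ⊢
      exact this
    have hd2 : (1 : ℝ) ≤ ((n : ℝ) ^ 60) ^ l / w := by
      rw [le_div_iff₀ hwpos, one_mul]
      exact_mod_cast hwy
    have hw9 : (w : ℝ) ^ (-(9 / 10) : ℝ) = (w : ℝ) ^ (1 / 10 : ℝ) / w := by
      rw [← Real.rpow_sub_one hwpos.ne']; norm_num
    calc (l.factorial : ℝ) * ((((n ^ 60) ^ l / w : ℕ) : ℝ) + 1)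
        ≤ (l : ℝ) ^ l * (2 * (((n : ℝ) ^ 60) ^ l / w)) := by
          gcongr; linarith
      _ ≤ (l : ℝ) ^ l * (2 * ((q * lam) ^ l / w)) := by gcongr
      _ = (q : ℝ) ^ l * (1 / 2 * ((4 * ((l : ℝ) * lam) ^ l) / w)) := by
          rw [mul_pow, mul_pow]; ring
      _ ≤ (q : ℝ) ^ l * (1 / 2 * ((w : ℝ) ^ (1 / 10 : ℝ) / w)) := by gcongr
      _ = _ := by rw [hw9]
  -- second part
  have hB : (2 : ℝ) ^ n * ((n : ℝ) + 1) ^ (2 * l) ≤ 4 ^ n * (1 / 2 * (w : ℝ) ^ (-(9 / 10) : ℝ)) := by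
    have hN : 2 * (n + 1) ^ (2 * l) * w ≤ 2 ^ n := by
      have e1 : (n + 1) ^ (2 * l) ≤ n ^ 4 * (n ^ 4) ^ (l - 1) := by
        have : n ^ 4 * (n ^ 4) ^ (l - 1) = (n ^ 2) ^ (2 * l) := by
          rw [← pow_succ', ← pow_mul, ← pow_mul]
          congr 1
          omega
        rw [this]
        apply Nat.pow_le_pow_left
        nlinarith
      calc 2 * (n + 1) ^ (2 * l) * w ≤ 2 * (n ^ 4 * (n ^ 4) ^ (l - 1)) * w := by gcongr
        _ ≤ 2 * (n ^ 4 * w) * w := by gcongr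
        _ ≤ 2 * (n ^ 4 * 2 ^ (n / 4)) * 2 ^ (n / 4) := by gcongr
        _ = 2 * n ^ 4 * 2 ^ (n / 4) * 2 ^ (n / 4) := by ring
        _ ≤ 2 ^ n := h2n
    have hN' : 2 * ((n : ℝ) + 1) ^ (2 * l) * w ≤ 2 ^ n := by exact_mod_cast hN
    have hw9 : (w : ℝ)⁻¹ ≤ (w : ℝ) ^ (-(9 / 10) : ℝ) := by
      rw [← Real.rpow_neg_one]
      exact Real.rpow_le_rpow_of_exponent_le hw1' (by norm_num)
    have h4 : (4 : ℝ) ^ n = 2 ^ n * 2 ^ n := by rw [← mul_pow]; norm_num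
    rw [h4]
    calc (2 : ℝ) ^ n * ((n : ℝ) + 1) ^ (2 * l)
        = 2 ^ n * ((2 * ((n : ℝ) + 1) ^ (2 * l) * w) * (1 / 2 * (w : ℝ)⁻¹)) := by
          field_simp
      _ ≤ 2 ^ n * (2 ^ n * (1 / 2 * (w : ℝ) ^ (-(9 / 10) : ℝ))) := by gcongr
      _ = _ := by ring
  push_cast
  have hqn : (q : ℝ) ^ n = (q : ℝ) ^ (n - l) * (q : ℝ) ^ l := by
    rw [← pow_add]; congr 1; omega
  have hA' : ((l.factorial : ℝ) * ((((n ^ 60) ^ l / w : ℕ) : ℝ) + 1)) ≤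
      (q : ℝ) ^ l * (1 / 2 * (w : ℝ) ^ (-(9 / 10) : ℝ)) := hA
  calc (4 : ℝ) ^ n * ((q : ℝ) ^ (n - l) * ((l.factorial : ℝ) * ((((n ^ 60) ^ l / w : ℕ) : ℝ) + 1)))
        + 2 ^ n * ((n : ℝ) + 1) ^ (2 * l) * (q : ℝ) ^ n
      ≤ (4 : ℝ) ^ n * ((q : ℝ) ^ (n - l) * ((q : ℝ) ^ l * (1 / 2 * (w : ℝ) ^ (-(9 / 10) : ℝ))))
        + (4 ^ n * (1 / 2 * (w : ℝ) ^ (-(9 / 10) : ℝ))) * (q : ℝ) ^ n := by
        gcongr
    _ = 4 ^ n * (q : ℝ) ^ n * (w : ℝ) ^ (-(9 / 10) : ℝ) := by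
        rw [hqn]; ring

/-- for a single family: few bad tuples for the modulus `w` -/
theorem bad_card (n w : ℕ) (hn : 1000 ≤ n) (hq : 0 < (QP n).card)
    (hlog : 1600 * Real.log n ≤ (n : ℝ) ^ (1 / 10 : ℝ))
    (h2n : 2 * n ^ 4 * 2 ^ (n / 4) * 2 ^ (n / 4) ≤ 2 ^ n)
    (hw1 : n / 200 ≤ w) (hw2 : w ≤ 2 ^ (n / 4)) :
    ((((Fintype.piFinset (fun _ : Fin n => QP n)).filter
      (fun P => (∀ i, ¬ P i ∣ w) ∧
        (4 : ℝ) ^ n * (w : ℝ) ^ (-(3 / 5) : ℝ) < (coll P w : ℝ))).card : ℕ) : ℝ) ≤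
      ((QP n).card : ℝ) ^ n * (w : ℝ) ^ (-(3 / 10) : ℝ) := by
  classical
  obtain ⟨l, hln, hl⟩ := param_ineq n w (QP n).card hn hq hlog h2n (QP_card n (by omega)) hw1 hw2
  have hw5 : 5 ≤ w := le_trans (by omega) hw1
  have hwpos : (0 : ℝ) < w := by exact_mod_cast (by omega : 0 < w)
  set F := (Fintype.piFinset (fun _ : Fin n => QP n)).filter (fun P => ∀ i, ¬ P i ∣ w) with hF
  set B := (Fintype.piFinset (fun _ : Fin n => QP n)).filter
      (fun P => (∀ i, ¬ P i ∣ w) ∧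
        (4 : ℝ) ^ n * (w : ℝ) ^ (-(3 / 5) : ℝ) < (coll P w : ℝ)) with hB
  have hBF : B ⊆ F := by
    intro P hP
    rw [hB, mem_filter] at hP
    rw [hF, mem_filter]
    exact ⟨hP.1, hP.2.1⟩
  have h1 := avg_coll (QP n) (fun p hp => (mem_QP.mp hp).1) (n ^ 60)
    (fun p hp => (mem_QP.mp hp).2.2) n l w (by omega)
  rw [← hF] at h1
  have h2 : ((∑ P ∈ F, coll P w : ℕ) : ℝ) ≤
      4 ^ n * ((QP n).card : ℝ) ^ n * (w : ℝ) ^ (-(9 / 10) : ℝ) :=
    le_trans (by exact_mod_cast h1) hl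
  have h3 : (B.card : ℝ) * ((4 : ℝ) ^ n * (w : ℝ) ^ (-(3 / 5) : ℝ)) ≤
      ((∑ P ∈ F, coll P w : ℕ) : ℝ) := by
    push_cast
    calc (B.card : ℝ) * ((4 : ℝ) ^ n * (w : ℝ) ^ (-(3 / 5) : ℝ))
        = ∑ _P ∈ B, ((4 : ℝ) ^ n * (w : ℝ) ^ (-(3 / 5) : ℝ)) := by
          rw [Finset.sum_const, nsmul_eq_mul]
      _ ≤ ∑ P ∈ B, (coll P w : ℝ) := by
          apply Finset.sum_le_sum
          intro P hP
          rw [hB, mem_filter] at hP
          exact hP.2.2.le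
      _ ≤ ∑ P ∈ F, (coll P w : ℝ) := by
          apply Finset.sum_le_sum_of_subset_of_nonneg hBF
          intro P _ _; positivity
  have h4 := h3.trans h2
  have h5 : (w : ℝ) ^ (-(9 / 10) : ℝ) = (w : ℝ) ^ (-(3 / 5) : ℝ) * (w : ℝ) ^ (-(3 / 10) : ℝ) := by
    rw [← Real.rpow_add hwpos]; norm_num
  rw [h5] at h4
  have h6 : (0 : ℝ) < (4 : ℝ) ^ n * (w : ℝ) ^ (-(3 / 5) : ℝ) := by positivity
  have h7 : (B.card : ℝ) * ((4 : ℝ) ^ n * (w : ℝ) ^ (-(3 / 5) : ℝ)) ≤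
      (((QP n).card : ℝ) ^ n * (w : ℝ) ^ (-(3 / 10) : ℝ)) *
        ((4 : ℝ) ^ n * (w : ℝ) ^ (-(3 / 5) : ℝ)) := by
    calc _ ≤ _ := h4
      _ = _ := by ring
  exact le_of_mul_le_mul_right h7 h6

theorem ev_log : ∃ N : ℕ, ∀ n : ℕ, N ≤ n → 1600 * Real.log n ≤ (n : ℝ) ^ (1 / 10 : ℝ) := by
  have h := (isLittleO_log_rpow_atTop (show (0 : ℝ) < 1 / 10 by norm_num)).bound
    (show (0 : ℝ) < 1 / 1600 by norm_num)
  have h2 := tendsto_natCast_atTop_atTop (R := ℝ) |>.eventually h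
  rw [Filter.eventually_atTop] at h2
  obtain ⟨N, hN⟩ := h2
  refine ⟨max N 1, fun n hn => ?_⟩
  have h3 := hN n (le_trans (le_max_left _ _) hn)
  have hn1 : (1 : ℝ) ≤ n := by exact_mod_cast le_trans (le_max_right _ _) hn
  rw [Real.norm_of_nonneg (Real.log_nonneg hn1),
    Real.norm_of_nonneg (Real.rpow_nonneg (by linarith) _)] at h3
  linarith

theorem ev_pow : ∃ N : ℕ, ∀ n : ℕ, N ≤ n → 2 * n ^ 4 * 2 ^ (n / 4) * 2 ^ (n / 4) ≤ 2 ^ n := by
  have h : ∀ m : ℕ, 64 ≤ m → 2 * (4 * m + 4) ^ 4 ≤ 2 ^ (2 * m) := by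
    intro m hm
    induction m, hm using Nat.le_induction with
    | base => norm_num
    | succ m hm ih =>
      have e : 2 ^ (2 * (m + 1)) = 4 * 2 ^ (2 * m) := by
        rw [show 2 * (m + 1) = 2 * m + 2 by ring, pow_add]; ring
      rw [e]
      have h1 : (4 * (m + 1) + 4) ^ 4 ≤ 4 * (4 * m + 4) ^ 4 := by
        have h2 : (4 * (m + 1) + 4) ^ 2 ≤ 2 * (4 * m + 4) ^ 2 := by nlinarith
        calc (4 * (m + 1) + 4) ^ 4 = ((4 * (m + 1) + 4) ^ 2) ^ 2 := by ring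
          _ ≤ (2 * (4 * m + 4) ^ 2) ^ 2 := Nat.pow_le_pow_left h2 2
          _ = 4 * (4 * m + 4) ^ 4 := by ring
      omega
  refine ⟨400, fun n hn => ?_⟩
  have h1 := h (n / 4) (by omega)
  have h2 : n ≤ 4 * (n / 4) + 4 := by omega
  calc 2 * n ^ 4 * 2 ^ (n / 4) * 2 ^ (n / 4)
      ≤ 2 * (4 * (n / 4) + 4) ^ 4 * 2 ^ (n / 4) * 2 ^ (n / 4) := by gcongr
    _ ≤ 2 ^ (2 * (n / 4)) * 2 ^ (n / 4) * 2 ^ (n / 4) := by gcongr
    _ = 2 ^ (4 * (n / 4)) := by rw [← pow_add, ← pow_add]; congr 1; ring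
    _ ≤ 2 ^ n := Nat.pow_le_pow_right (by norm_num) (by omega)

/-- C3: existence of ten families of primes such that for each modulus `w` one family has few
collisions. -/
theorem exists_families : ∃ n0 : ℕ, ∀ n ≥ n0, ∃ P : Fin 10 → Fin n → ℕ,
    (∀ t i, (P t i).Prime ∧ n ^ 2 < P t i ∧ P t i ≤ n ^ 60) ∧
    ∀ w : ℕ, n / 200 ≤ w → w ≤ 2 ^ (n / 4) →
      ∃ t, (∃ i, P t i ∣ w) ∨ (coll (P t) w : ℝ) ≤ 4 ^ n * (w : ℝ) ^ (-(3 / 5 : ℝ)) := by
  classical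
  obtain ⟨N1, hN1⟩ := ev_log
  obtain ⟨N2, hN2⟩ := ev_pow
  refine ⟨max (max N1 N2) 1000, fun n hn => ?_⟩
  have hn1 : N1 ≤ n := le_trans (le_trans (le_max_left _ _) (le_max_left _ _)) hn
  have hn2 : N2 ≤ n := le_trans (le_trans (le_max_right _ _) (le_max_left _ _)) hn
  have hn3 : 1000 ≤ n := le_trans (le_max_right _ _) hn
  have hn' : (1000 : ℝ) ≤ n := by exact_mod_cast hn3
  have hlogn : 0 < Real.log n := Real.log_pos (by linarith)
  have hq : 0 < (QP n).card := by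
    have h1 := QP_card n (by omega)
    have h2 : 0 < (n : ℝ) ^ 60 / (200 * Real.log n) := by positivity
    exact_mod_cast lt_of_lt_of_le h2 h1
  set Ω := Fintype.piFinset (fun _ : Fin n => QP n) with hΩ
  have hΩc : Ω.card = (QP n).card ^ n := by rw [hΩ, Fintype.card_piFinset]; simp
  set bad : ℕ → Finset (Fin n → ℕ) := fun w => Ω.filter
      (fun P => (∀ i, ¬ P i ∣ w) ∧
        (4 : ℝ) ^ n * (w : ℝ) ^ (-(3 / 5) : ℝ) < (coll P w : ℝ)) with hbad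
  have hsum : ∑ w ∈ Finset.Icc (n / 200) (2 ^ (n / 4)), (bad w).card ^ 10 < Ω.card ^ 10 := by
    have hreal : ((∑ w ∈ Finset.Icc (n / 200) (2 ^ (n / 4)), (bad w).card ^ 10 : ℕ) : ℝ)
        < ((Ω.card ^ 10 : ℕ) : ℝ) := by
      push_cast
      have hle : ∀ w ∈ Finset.Icc (n / 200) (2 ^ (n / 4)), ((bad w).card : ℝ) ^ 10 ≤
          (((QP n).card : ℝ) ^ n) ^ 10 * (1 / (w : ℝ) ^ 3) := by
        intro w hw
        rw [mem_Icc] at hw
        have hb := bad_card n w hn3 hq (hN1 n hn1) (hN2 n hn2) hw.1 hw.2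
        have hw5 : 5 ≤ w := le_trans (by omega) hw.1
        have hwpos : (0 : ℝ) < w := by exact_mod_cast (by omega : 0 < w)
        calc ((bad w).card : ℝ) ^ 10
            ≤ (((QP n).card : ℝ) ^ n * (w : ℝ) ^ (-(3 / 10) : ℝ)) ^ 10 := by gcongr
          _ = (((QP n).card : ℝ) ^ n) ^ 10 * ((w : ℝ) ^ (-(3 / 10) : ℝ)) ^ 10 := by
              rw [mul_pow]
          _ = _ := by
            congr 1
            rw [← Real.rpow_natCast, ← Real.rpow_mul hwpos.le, one_div, ← Real.rpow_natCast,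
              ← Real.rpow_neg hwpos.le]
            norm_num
      calc ∑ w ∈ Finset.Icc (n / 200) (2 ^ (n / 4)), ((bad w).card : ℝ) ^ 10
          ≤ ∑ w ∈ Finset.Icc (n / 200) (2 ^ (n / 4)),
              (((QP n).card : ℝ) ^ n) ^ 10 * (1 / (w : ℝ) ^ 3) := Finset.sum_le_sum hle
        _ = (((QP n).card : ℝ) ^ n) ^ 10 *
              ∑ w ∈ Finset.Icc (n / 200) (2 ^ (n / 4)), (1 / (w : ℝ) ^ 3) := by
            rw [← Finset.mul_sum]
        _ < (((QP n).card : ℝ) ^ n) ^ 10 * 1 := by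
            have hqpos : (0 : ℝ) < (QP n).card := by exact_mod_cast hq
            have := sum_inv_cube_lt (n / 200) (2 ^ (n / 4)) (by omega)
            gcongr
        _ = (Ω.card : ℝ) ^ 10 := by rw [mul_one, hΩc]; push_cast; rfl
    exact_mod_cast hreal
  obtain ⟨P, hP1, hP2⟩ := exists_avoid_tuple Ω (Finset.Icc (n / 200) (2 ^ (n / 4))) bad hsum
  refine ⟨P, fun t i => ?_, fun w hw1 hw2 => ?_⟩
  · have := hP1 t
    rw [hΩ, Fintype.mem_piFinset] at this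
    exact mem_QP.mp (this i)
  · obtain ⟨t, ht⟩ := hP2 w (mem_Icc.mpr ⟨hw1, hw2⟩)
    refine ⟨t, ?_⟩
    by_contra hcon
    push Not at hcon
    apply ht
    rw [hbad]
    simp only [mem_filter]
    exact ⟨hP1 t, hcon.1, hcon.2⟩

end Crest.Agent.R019
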