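import Crest.Agent.R019.Defs

set_option autoImplicit false

namespace Crest.Agent.R019

open Finset

/-- state of the greedy algorithm after `k` steps without stopping -/
def GSt (a b T k : ℕ) : Prop :=
  ∃ (S : Finset ℕ) (c M w : ℕ), S.card ≤ k ∧ (∀ n ∈ S, 2 ≤ n ∧ n ≤ w) ∧ 0 < c ∧ c < b ∧
    0 < M ∧ M ≤ b * w ∧ c * w < M ∧ 1 ≤ w ∧ w < T ^ 2 ∧ (1 ≤ k → 2 ^ (2 ^ (k - 1)) ≤ w) ∧
    (∑ n ∈ S, (1 : ℚ) / n) + c / M = a / b

/-- final configuration of the greedy algorithm with at most `k` terms -/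
def GFin (a b T k : ℕ) : Prop :=
  ∃ S : Finset ℕ, (∀ n ∈ S, 2 ≤ n) ∧ S.card ≤ k ∧
      ((∑ n ∈ S, (1 : ℚ) / n = a / b) ∨
        ∃ c M r : ℕ, 0 < c ∧ c < b ∧ 0 < M ∧ r ∣ M ∧ T ≤ r ∧ r ≤ b * T ^ 2 + 1 ∧
          (∑ n ∈ S, (1 : ℚ) / n) + c / M = a / b ∧ ∀ n ∈ S, (c : ℚ) / M < 1 / n)

theorem GFin.mono {a b T k l : ℕ} (h : GFin a b T k) (hkl : k ≤ l) : GFin a b T l := by
  obtain ⟨S, h1, h2, h3⟩ := h
  exact ⟨S, h1, h2.trans hkl, h3⟩

/-- one greedy step. Either we are finished, or we get the next state; if `T ≤ w` we are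
finished. -/
theorem GSt.step {a b T k : ℕ} (h : GSt a b T k) :
    GFin a b T (k + 1) ∨ (GSt a b T (k + 1) ∧ (1 ≤ k → 2 ^ (2 ^ (k - 1)) < T)) := by
  obtain ⟨S, c, M, w, hcard, hS, hc, hcb, hM, hMw, hcw, hw, hwT, hgrow, hsum⟩ := h
  -- the next denominator
  obtain ⟨n, hn1, hn2⟩ : ∃ n : ℕ, M ≤ c * n ∧ c * (n - 1) < M := by
    refine ⟨(M + c - 1) / c, ?_, ?_⟩
    · have h1 := Nat.div_add_mod (M + c - 1) c
      have h2 := Nat.mod_lt (M + c - 1) hc
      omega
    · have h1 := Nat.div_mul_le_self (M + c - 1) c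
      rw [Nat.mul_sub, mul_comm c]
      omega
  have hwn : w < n := by
    by_contra hcon
    have : c * n ≤ c * w := Nat.mul_le_mul_left c (not_lt.mp hcon)
    omega
  have hn2' : 2 ≤ n := by omega
  have hnS : n ∉ S := fun hmem => by
    have := (hS n hmem).2
    omega
  have hnpos : (0 : ℚ) < n := by exact_mod_cast (by omega : 0 < n)
  have hMpos : (0 : ℚ) < M := by exact_mod_cast hM
  -- new numerator
  obtain ⟨c', hc'⟩ : ∃ c' : ℕ, c * n = M + c' := ⟨c * n - M, by omega⟩
  have hc'c : c' < c := by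
    have : c * n = c * (n - 1) + c := by
      obtain ⟨m, rfl⟩ : ∃ m, n = m + 1 := ⟨n - 1, by omega⟩
      simp [Nat.mul_add]
    omega
  have hfrac : (c : ℚ) / M = 1 / n + c' / ((M * n : ℕ) : ℚ) := by
    have h1 : (c : ℚ) * n = M + c' := by exact_mod_cast hc'
    push_cast
    field_simp
    linarith
  have hsum' : (∑ x ∈ insert n S, (1 : ℚ) / x) + c' / ((M * n : ℕ) : ℚ) = a / b := by
    rw [Finset.sum_insert hnS, ← hsum, hfrac]
    ring
  have hcard' : (insert n S).card ≤ k + 1 := by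
    rw [Finset.card_insert_of_notMem hnS]
    omega
  have hS' : ∀ x ∈ insert n S, 2 ≤ x := by
    intro x hx
    rcases Finset.mem_insert.mp hx with rfl | hx
    · exact hn2'
    · exact (hS x hx).1
  rcases Nat.eq_zero_or_pos c' with h0 | hpos
  · left
    refine ⟨insert n S, hS', hcard', Or.inl ?_⟩
    rw [← hsum', h0]
    simp
  have hkey : c' * (n - 1) < M := lt_of_le_of_lt (Nat.mul_le_mul_right _ hc'c.le) hn2
  have hkeyn : c' * n < M * n := by
    have h1 : c' ≤ c' * (n - 1) := Nat.le_mul_of_pos_right _ (by omega)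
    exact Nat.mul_lt_mul_of_pos_right (by omega) (by omega)
  rcases le_or_gt T n with hTn | hnT
  · left
    refine ⟨insert n S, hS', hcard', Or.inr ⟨c', M * n, n, hpos, by omega,
      Nat.mul_pos hM (by omega), Dvd.intro_left _ rfl, hTn, ?_, hsum', ?_⟩⟩
    · have h1 : n - 1 ≤ c * (n - 1) := Nat.le_mul_of_pos_left _ hc
      have h2 : b * w ≤ b * T ^ 2 := Nat.mul_le_mul_left b hwT.le
      omega
    · intro x hx
      have hxn : x ≤ n := by
        rcases Finset.mem_insert.mp hx with rfl | hx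
        · exact le_rfl
        · have := (hS x hx).2
          omega
      have hx2 : 2 ≤ x := hS' x hx
      have hxpos : (0 : ℚ) < x := by exact_mod_cast (by omega : 0 < x)
      rw [div_lt_div_iff₀ (by exact_mod_cast Nat.mul_pos hM (by omega)) hxpos]
      have h1 : c' * x ≤ c' * n := Nat.mul_le_mul_left _ hxn
      have h2 : c' * x < 1 * (M * n) := by omega
      exact_mod_cast h2
  · right
    refine ⟨⟨insert n S, c', M * n, n * (n - 1), hcard', ?_, hpos, by omega,
      Nat.mul_pos hM (by omega), ?_, ?_, ?_, ?_, ?_, hsum'⟩, ?_⟩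
    · intro x hx
      refine ⟨hS' x hx, ?_⟩
      have hxn : x ≤ n := by
        rcases Finset.mem_insert.mp hx with rfl | hx
        · exact le_rfl
        · have := (hS x hx).2
          omega
      exact hxn.trans (Nat.le_mul_of_pos_right _ (by omega))
    · calc M * n ≤ (b * w) * n := Nat.mul_le_mul_right _ hMw
        _ ≤ (b * (n - 1)) * n := Nat.mul_le_mul_right _ (Nat.mul_le_mul_left _ (by omega))
        _ = b * (n * (n - 1)) := by ring
    · calc c' * (n * (n - 1)) = (c' * (n - 1)) * n := by ring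
        _ < M * n := Nat.mul_lt_mul_of_pos_right hkey (by omega)
    · exact Nat.mul_pos (by omega) (by omega)
    · calc n * (n - 1) ≤ n * n := Nat.mul_le_mul_left _ (by omega)
        _ < T * T := Nat.mul_self_lt_mul_self hnT
        _ = T ^ 2 := by ring
    · intro _
      have hww : w * w ≤ n * (n - 1) := Nat.mul_le_mul hwn.le (by omega)
      rcases Nat.eq_zero_or_pos k with rfl | hk
      · simp only [Nat.zero_add, Nat.sub_self, pow_zero, pow_one]
        calc 2 ≤ n := hn2'
          _ ≤ n * (n - 1) := Nat.le_mul_of_pos_right _ (by omega)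
      · have h1 := hgrow hk
        have h2 : k + 1 - 1 = (k - 1) + 1 := by omega
        rw [h2, pow_succ 2 (k - 1), pow_mul, sq]
        exact (Nat.mul_le_mul h1 h1).trans hww
    · intro hk
      have := hgrow hk
      omega

/-- Greedy algorithm until the last denominator `r` is at least `T`. -/
theorem greedy (a b T : ℕ) (ha : 1 ≤ a) (hab : a < b) (hT : 2 ≤ T) :
    ∃ S : Finset ℕ, (∀ n ∈ S, 2 ≤ n) ∧ S.card ≤ Nat.log 2 (Nat.log 2 T) + 4 ∧
      ((∑ n ∈ S, (1 : ℚ) / n = a / b) ∨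
        ∃ c M r : ℕ, 0 < c ∧ c < b ∧ 0 < M ∧ r ∣ M ∧ T ≤ r ∧ r ≤ b * T ^ 2 + 1 ∧
          (∑ n ∈ S, (1 : ℚ) / n) + c / M = a / b ∧ ∀ n ∈ S, (c : ℚ) / M < 1 / n) := by
  set K := Nat.log 2 (Nat.log 2 T) + 2 with hK
  have h0 : GSt a b T 0 := by
    refine ⟨∅, a, b, 1, by simp, by simp, ha, hab, by omega, by omega, by omega, le_rfl, ?_,
      by simp, by simp⟩
    nlinarith
  have hind : ∀ k, GFin a b T k ∨ GSt a b T k := by
    intro k
    induction k with
    | zero => exact Or.inr h0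
    | succ k ih =>
      rcases ih with ih | ih
      · exact Or.inl (ih.mono (Nat.le_succ k))
      · rcases ih.step with h | h
        · exact Or.inl h
        · exact Or.inr h.1
  have hfin : GFin a b T (K + 1) := by
    rcases hind K with h | h
    · exact h.mono (Nat.le_succ K)
    · rcases h.step with h | h
      · exact h
      · exfalso
        have h1 := h.2 (by omega)
        have h2 : T < 2 ^ (Nat.log 2 T + 1) := Nat.lt_pow_succ_log_self (by norm_num) T
        have h3 : Nat.log 2 T < 2 ^ (Nat.log 2 (Nat.log 2 T) + 1) :=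
          Nat.lt_pow_succ_log_self (by norm_num) _
        have h4 : K - 1 = Nat.log 2 (Nat.log 2 T) + 1 := by omega
        rw [h4] at h1
        have h5 : 2 ^ (Nat.log 2 T + 1) ≤ 2 ^ (2 ^ (Nat.log 2 (Nat.log 2 T) + 1)) :=
          Nat.pow_le_pow_right (by norm_num) h3
        omega
  exact hfin.mono (by omega)

end Crest.Agent.R019
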