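import Crest.Agent.R019.Defs

set_option autoImplicit false

namespace Crest.Agent.R019

open Finset

lemma sum_mod_aux {s : ℕ} (hs : 0 < s) (e : Fin s → ℕ) (hpos : ∀ j, 0 < e j)
    (hval : ∀ j : Fin s, padicValNat 2 (e j) = 2 * j) :
    e ⟨0, hs⟩ % 2 = 1 ∧ 4 ∣ (∑ j, e j) - e ⟨0, hs⟩ := by
  have h0 : e ⟨0, hs⟩ % 2 = 1 := by
    have h1 := hval ⟨0, hs⟩
    simp only [mul_zero] at h1
    rw [padicValNat.eq_zero_iff] at h1
    rcases h1 with h1 | h1 | h1
    · omega
    · have := hpos ⟨0, hs⟩; omega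
    · omega
  refine ⟨h0, ?_⟩
  have hsplit : (∑ j, e j) = e ⟨0, hs⟩ + ∑ j ∈ (Finset.univ.erase (⟨0, hs⟩ : Fin s)), e j := by
    rw [Finset.add_sum_erase _ _ (Finset.mem_univ _)]
  rw [hsplit, Nat.add_sub_cancel_left]
  apply Finset.dvd_sum
  intro j hj
  have hj0 : (j : ℕ) ≠ 0 := by
    intro h
    apply (Finset.mem_erase.mp hj).1
    exact Fin.ext h
  have : 2 ^ 2 ∣ e j := by
    have h2 : 2 ≤ padicValNat 2 (e j) := by rw [hval]; omega
    exact (pow_dvd_pow 2 h2).trans pow_padicValNat_dvd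
  simpa using this

/-- One good numerator: `d * v / L` is a sum of `s` unit fractions with prescribed 2-adic
valuations. -/
theorem one_step {s n Q : ℕ} {good : ℕ → Prop} (h : CoreData s n Q good) (hs : 0 < s) (d v L : ℕ)
    (hL : 0 < L) (hd : d * Q ∣ L) (hv : good v) :
    ∃ f : Fin s → ℕ, (∀ j, 0 < f j) ∧
      (∀ j, padicValNat 2 (f j) + 2 * j + padicValNat 2 d = padicValNat 2 L) ∧
      (∑ j, (1 : ℚ) / f j = (d * v : ℕ) / L) ∧
      (v % 4 = 3 → ∀ j, f j ≠ L / d) := by
  obtain ⟨e, heQ, hval, hdvd⟩ := h.good_rep v hv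
  obtain ⟨m, rfl⟩ := hd
  have hQ := h.Qpos
  have hepos : ∀ j, 0 < e j := fun j => Nat.pos_of_dvd_of_pos (heQ j) hQ
  have hdpos : 0 < d := by
    rcases Nat.eq_zero_or_pos d with h | h
    · simp [h] at hL
    · exact h
  have hmpos : 0 < m := by
    rcases Nat.eq_zero_or_pos m with h | h
    · simp [h] at hL
    · exact h
  obtain ⟨he0, h4⟩ := sum_mod_aux hs e hepos hval
  obtain ⟨τ, hτ⟩ := hdvd
  have hsumge : e ⟨0, hs⟩ ≤ ∑ j, e j :=
    Finset.single_le_sum (f := e) (fun _ _ => Nat.zero_le _) (Finset.mem_univ _)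
  have hEodd : (∑ j, e j) % 2 = 1 := by omega
  have hodd : (v * τ) % 2 = 1 := by rw [← hτ]; exact hEodd
  have hvodd : Odd v := h.good_odd v hv
  have hτodd : Odd τ := by
    have : Odd (v * τ) := Nat.odd_iff.mpr hodd
    exact (Nat.odd_mul.mp this).2
  have hτpos : 0 < τ := hτodd.pos
  have hvpos : 0 < v := hvodd.pos
  choose g hg using heQ
  have hgpos : ∀ j, 0 < g j := by
    intro j
    rcases Nat.eq_zero_or_pos (g j) with h | h
    · have := hg j; rw [h] at this; omega
    · exact h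
  have hvτ : padicValNat 2 τ = 0 := by
    apply padicValNat.eq_zero_of_not_dvd
    intro h2
    have := Nat.odd_iff.mp hτodd
    omega
  refine ⟨fun j => τ * g j * m, fun j => ?_, fun j => ?_, ?_, ?_⟩
  · exact Nat.mul_pos (Nat.mul_pos hτpos (hgpos j)) hmpos
  · have hp : Fact (Nat.Prime 2) := ⟨Nat.prime_two⟩
    rw [padicValNat.mul (Nat.mul_pos hτpos (hgpos j)).ne' hmpos.ne',
      padicValNat.mul hτpos.ne' (hgpos j).ne',
      padicValNat.mul (Nat.mul_pos hdpos hQ).ne' hmpos.ne',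
      padicValNat.mul hdpos.ne' hQ.ne']
    have h1 : padicValNat 2 Q = 2 * j + padicValNat 2 (g j) := by
      rw [hg j, padicValNat.mul (hepos j).ne' (hgpos j).ne', hval]
    rw [h1, hvτ]
    ring
  · have hsum : ∑ j, (1 : ℚ) / ((τ * g j * m : ℕ) : ℚ) = ∑ j, (e j : ℚ) / (τ * (Q * m)) := by
      apply Finset.sum_congr rfl
      intro j _
      have h1 : (Q : ℚ) = e j * g j := by rw [hg j]; push_cast; ring
      rw [h1]
      have a1 : (e j : ℚ) ≠ 0 := by exact_mod_cast (hepos j).ne'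
      have a2 : (g j : ℚ) ≠ 0 := by exact_mod_cast (hgpos j).ne'
      have a3 : (τ : ℚ) ≠ 0 := by exact_mod_cast hτpos.ne'
      have a4 : (m : ℚ) ≠ 0 := by exact_mod_cast hmpos.ne'
      push_cast
      field_simp
    rw [hsum, ← Finset.sum_div, ← Nat.cast_sum, hτ]
    have a2 : (Q : ℚ) ≠ 0 := by exact_mod_cast hQ.ne'
    have a3 : (τ : ℚ) ≠ 0 := by exact_mod_cast hτpos.ne'
    have a4 : (m : ℚ) ≠ 0 := by exact_mod_cast hmpos.ne'
    have a5 : (d : ℚ) ≠ 0 := by exact_mod_cast hdpos.ne'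
    push_cast
    field_simp
  · intro hv4 j hj
    have hLd : d * Q * m / d = Q * m := by
      rw [mul_assoc]; exact Nat.mul_div_cancel_left _ hdpos
    simp only [hLd] at hj
    have h1 : τ * g j = Q := Nat.eq_of_mul_eq_mul_right hmpos hj
    have h2 : τ = e j := by
      rw [hg j] at h1
      exact Nat.eq_of_mul_eq_mul_right (hgpos j) h1
    have h3 : (j : ℕ) = 0 := by
      have := hval j
      rw [← h2, hvτ] at this
      omega
    have hj0 : j = ⟨0, hs⟩ := Fin.ext h3
    subst hj0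
    rw [hτ, ← h2] at h4
    have h5 : v * τ - τ = (v - 1) * τ := by rw [Nat.sub_mul, one_mul]
    rw [h5] at h4
    have h6 : Nat.Coprime 4 τ := by
      have : Nat.Coprime (2 ^ 2) τ := Nat.Coprime.pow_left 2 (Nat.coprime_two_left.mpr hτodd)
      simpa using this
    have h7 : 4 ∣ v - 1 := h6.dvd_of_dvd_mul_right h4
    omega

lemma padic_two_scale (d0 D i : ℕ) (hd0 : 0 < d0) :
    padicValNat 2 (d0 * 2 ^ (D * i)) = padicValNat 2 d0 + D * i := by
  rw [padicValNat.mul hd0.ne' (by positivity), padicValNat.prime_pow]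

/-- Reduction through the scales `d0 * 2^(D * i)`, `i < I`
(from `q < d_{i+1} G` to `q' < d_i G` with the step `d_i v`). -/
theorem range_lemma {s n Q : ℕ} {good : ℕ → Prop} (h : CoreData s n Q good) (hs : 0 < s)
    (D : ℕ) (hD : 4 * s ≤ D) (hDn : D ≤ n / 16) (d0 : ℕ) (hd0 : 0 < d0) (I L : ℕ) (hL : 0 < L)
    (hdvd : d0 * 2 ^ (D * I) * Q ∣ L) (q : ℕ) (hq : q < d0 * 2 ^ (D * I) * 2 ^ (n / 64)) :
    ∃ (q' : ℕ) (S : Finset ℕ), q' < d0 * 2 ^ (n / 64) ∧ q' ≤ q ∧
      (∑ m ∈ S, (1 : ℚ) / m = ((q : ℚ) - q') / L) ∧ S.card ≤ s * I ∧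
      ∀ m ∈ S, 0 < m ∧ ∃ i j, i < I ∧ j < s ∧
        padicValNat 2 m + 2 * j + D * i + padicValNat 2 d0 = padicValNat 2 L := by
  induction I generalizing q with
  | zero =>
    refine ⟨q, ∅, by simpa using hq, le_rfl, by simp, by simp, by simp⟩
  | succ I ih =>
    have hdvd' : d0 * 2 ^ (D * I) * Q ∣ L := by
      refine dvd_trans ?_ hdvd
      apply Nat.mul_dvd_mul_right
      apply Nat.mul_dvd_mul_left
      exact pow_dvd_pow 2 (Nat.mul_le_mul_left D (Nat.le_succ I))
    set d := d0 * 2 ^ (D * I) with hd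
    have hdpos : 0 < d := by positivity
    set G := 2 ^ (n / 64) with hG
    by_cases hx : q < d * G
    · obtain ⟨q', S, h1, h2, h3, h4, h5⟩ := ih hdvd' q hx
      refine ⟨q', S, h1, h2, h3, h4.trans (Nat.mul_le_mul_left s (Nat.le_succ I)), ?_⟩
      intro m hm
      obtain ⟨h6, i, j, h7, h8, h9⟩ := h5 m hm
      exact ⟨h6, i, j, by omega, h8, h9⟩
    · have hGx : G ≤ q / d := by
        rw [Nat.le_div_iff_mul_le hdpos]
        rw [mul_comm]; exact not_lt.mp hx
      have hxle : q / d ≤ 2 ^ (n / 4) := by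
        have h1 : q / d < 2 ^ D * G := by
          rw [Nat.div_lt_iff_lt_mul hdpos]
          calc q < d0 * 2 ^ (D * (I + 1)) * G := hq
            _ = 2 ^ D * G * d := by rw [hd, mul_add, pow_add, mul_one]; ring
        have h2 : 2 ^ D * G ≤ 2 ^ (n / 4) := by
          rw [hG, ← pow_add]
          apply Nat.pow_le_pow_right (by norm_num)
          omega
        exact h1.le.trans h2
      obtain ⟨v, hv, hvx, hxv⟩ := h.dense (q / d) hGx hxle
      have hdv : d * v ≤ q := by
        calc d * v ≤ d * (q / d) := Nat.mul_le_mul_left d hvx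
          _ ≤ q := Nat.mul_div_le q d
      have hq1 : q - d * v < d * G := by
        have h1 : q < d * (q / d) + d := Nat.lt_mul_div_succ q hdpos |>.trans_eq (by ring)
        have h2 : d * (q / d) + d ≤ d * (v + G) := by
          have : q / d + 1 ≤ v + G := hxv
          calc d * (q / d) + d = d * (q / d + 1) := by ring
            _ ≤ d * (v + G) := Nat.mul_le_mul_left d this
        have h3 : d * (v + G) = d * v + d * G := by ring
        omega
      obtain ⟨q', S, h1, h2, h3, h4, h5⟩ := ih hdvd' (q - d * v) hq1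
      obtain ⟨f, hf1, hf2, hf3, -⟩ := one_step h hs d v L hL hdvd' hv
      have hdval : padicValNat 2 d = padicValNat 2 d0 + D * I := padic_two_scale d0 D I hd0
      have hfinj : Function.Injective f := by
        intro j j' hjj
        have e1 := hf2 j
        have e2 := hf2 j'
        rw [hjj] at e1
        apply Fin.ext
        omega
      have hdisj : Disjoint S (Finset.univ.image f) := by
        rw [Finset.disjoint_left]
        intro m hm hm'
        obtain ⟨j, -, rfl⟩ := Finset.mem_image.mp hm'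
        obtain ⟨-, i', j', h7, h8, h9⟩ := h5 _ hm
        have e1 := hf2 j
        rw [hdval] at e1
        have e2 : D * (i' + 1) ≤ D * I := Nat.mul_le_mul_left D h7
        have e3 : D * (i' + 1) = D * i' + D := by ring
        omega
      refine ⟨q', S ∪ Finset.univ.image f, h1, h2.trans (Nat.sub_le _ _), ?_, ?_, ?_⟩
      · rw [Finset.sum_union hdisj, h3, Finset.sum_image (fun a _ b _ hab => hfinj hab), hf3,
          Nat.cast_sub hdv]
        push_cast
        ring
      · calc (S ∪ Finset.univ.image f).card ≤ S.card + (Finset.univ.image f).card :=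
            Finset.card_union_le _ _
          _ ≤ s * I + s := by
            refine Nat.add_le_add h4 ?_
            calc (Finset.univ.image f).card ≤ (Finset.univ : Finset (Fin s)).card :=
                  Finset.card_image_le
              _ = s := by simp
          _ = s * (I + 1) := by ring
      · intro m hm
        rcases Finset.mem_union.mp hm with hm | hm
        · obtain ⟨h6, i, j, h7, h8, h9⟩ := h5 m hm
          exact ⟨h6, i, j, by omega, h8, h9⟩
        · obtain ⟨j, -, rfl⟩ := Finset.mem_image.mp hm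
          refine ⟨hf1 j, I, j, by omega, j.2, ?_⟩
          have e1 := hf2 j
          rw [hdval] at e1
          omega

/-- Everything after the greedy phase. -/
theorem tail_rep {s n Q : ℕ} {good : ℕ → Prop} (h : CoreData s n Q good) (hs : 0 < s)
    (hn : 64 * (4 * s) ≤ n) (c M r : ℕ) (hc : 0 < c) (hM : 0 < M) (hr : r ∣ M) (hcr : c * Q ≤ r) :
    ∃ S : Finset ℕ, (∀ m ∈ S, 0 < m) ∧ (∑ m ∈ S, (1 : ℚ) / m = (c : ℚ) / M) ∧
      S.card ≤ s * (2 * (Nat.log 2 r / (n / 16) + 4)) + s + 1 := by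
  classical
  have hQ := h.Qpos
  obtain ⟨D, hDdef⟩ : ∃ D, D = n / 16 := ⟨_, rfl⟩
  have hD16 : 16 * s ≤ D := by omega
  have hDpos : 0 < D := by omega
  have hrpos : 0 < r := Nat.pos_of_dvd_of_pos hr hM
  obtain ⟨a, ha⟩ : ∃ a, a = padicValNat 2 r := ⟨_, rfl⟩
  -- ctop
  obtain ⟨ct, e, hct, hae⟩ : ∃ ct e : ℕ, ct < D ∧ a + ct = D * e := by
    rcases Nat.eq_zero_or_pos (a % D) with h0 | h0
    · refine ⟨0, a / D, hDpos, ?_⟩
      have := Nat.div_add_mod a D
      omega
    · refine ⟨D - a % D, a / D + 1, by omega, ?_⟩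
      have := Nat.div_add_mod a D
      have h2 := Nat.mod_lt a hDpos
      rw [Nat.mul_add]
      omega
  obtain ⟨hh, hhdef⟩ : ∃ hh, hh = n / 32 := ⟨_, rfl⟩
  have hh1 : 2 * hh ≤ D := by omega
  have hh2 : D ≤ 2 * hh + 1 := by omega
  obtain ⟨I', hI'⟩ : ∃ I', I' = Nat.log 2 r / D + 2 := ⟨_, rfl⟩
  obtain ⟨k, hk⟩ : ∃ k, k = ct + D * (I' + 1) := ⟨_, rfl⟩
  obtain ⟨L, hL⟩ : ∃ L, L = 2 ^ k * Q * M := ⟨_, rfl⟩
  have hLpos : 0 < L := by rw [hL]; positivity
  obtain ⟨d0, hd0⟩ : ∃ d0, d0 = r * 2 ^ ct := ⟨_, rfl⟩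
  have hd0pos : 0 < d0 := by rw [hd0]; positivity
  have hvd0 : padicValNat 2 d0 = D * e := by
    rw [hd0, padicValNat.mul (by omega) (by positivity), padicValNat.prime_pow, ← ha, hae]
  have hG2 : 1 < 2 ^ (n / 64) := Nat.one_lt_two_pow (by omega)
  -- phase 1
  obtain ⟨q1, S1, hq1, hq1le, hS1sum, hS1card, hS1⟩ :=
    range_lemma h hs D (by omega) (by omega) d0 hd0pos (I' + 1) L hLpos
      (by
        rw [hd0, hL, hk, pow_add]
        obtain ⟨M', rfl⟩ := hr
        exact ⟨M', by ring⟩)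
      (c * 2 ^ k * Q)
      (by
        have h1 : c * 2 ^ k * Q ≤ d0 * 2 ^ (D * (I' + 1)) := by
          calc c * 2 ^ k * Q = (c * Q) * 2 ^ k := by ring
            _ ≤ r * 2 ^ k := Nat.mul_le_mul_right _ hcr
            _ = d0 * 2 ^ (D * (I' + 1)) := by rw [hd0, hk, pow_add]; ring
        have h2 : 0 < d0 * 2 ^ (D * (I' + 1)) := by positivity
        calc c * 2 ^ k * Q ≤ d0 * 2 ^ (D * (I' + 1)) := h1
          _ = d0 * 2 ^ (D * (I' + 1)) * 1 := by ring
          _ < d0 * 2 ^ (D * (I' + 1)) * 2 ^ (n / 64) := Nat.mul_lt_mul_of_pos_left hG2 h2)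
  -- bound for r * 2^ct
  have hrct : d0 ≤ 2 ^ (D * I') := by
    have h1 : r < 2 ^ (Nat.log 2 r + 1) := Nat.lt_pow_succ_log_self (by norm_num) r
    have h2 : Nat.log 2 r < D * (Nat.log 2 r / D + 1) := by
      have := Nat.div_add_mod (Nat.log 2 r) D
      have h3 := Nat.mod_lt (Nat.log 2 r) hDpos
      rw [Nat.mul_add]
      omega
    have h4 : Nat.log 2 r + 1 + ct ≤ D * I' := by
      rw [hI']
      have : D * (Nat.log 2 r / D + 2) = D * (Nat.log 2 r / D + 1) + D := by ring
      omega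
    calc d0 = r * 2 ^ ct := hd0
      _ ≤ 2 ^ (Nat.log 2 r + 1) * 2 ^ ct := Nat.mul_le_mul_right _ h1.le
      _ = 2 ^ (Nat.log 2 r + 1 + ct) := by rw [← pow_add]
      _ ≤ 2 ^ (D * I') := Nat.pow_le_pow_right (by norm_num) h4
  -- phase 2
  obtain ⟨q2, S2, hq2, hq2le, hS2sum, hS2card, hS2⟩ :=
    range_lemma h hs D (by omega) (by omega) (2 ^ hh) (by positivity) I' L hLpos
      (by
        have : hh + D * I' ≤ k := by rw [hk, Nat.mul_add]; omega
        obtain ⟨k', hk'⟩ := Nat.exists_eq_add_of_le this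
        rw [hL, hk', pow_add, pow_add]
        exact ⟨2 ^ k' * M, by ring⟩)
      q1
      (by
        calc q1 < d0 * 2 ^ (n / 64) := hq1
          _ ≤ 2 ^ (D * I') * 2 ^ (n / 64) := Nat.mul_le_mul_right _ hrct
          _ ≤ 2 ^ hh * 2 ^ (D * I') * 2 ^ (n / 64) := by
            apply Nat.mul_le_mul_right
            exact Nat.le_mul_of_pos_left _ (by positivity))
  have hvh : padicValNat 2 (2 ^ hh) = hh := padicValNat.prime_pow hh
  obtain ⟨V, hV⟩ : ∃ V, V = padicValNat 2 L := ⟨_, rfl⟩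
  have hdisj : Disjoint S1 S2 := by
    rw [Finset.disjoint_left]
    intro m hm1 hm2
    obtain ⟨_, i1, j1, hi1, hj1, hv1⟩ := hS1 m hm1
    obtain ⟨_, i2, j2, hi2, hj2, hv2⟩ := hS2 m hm2
    rw [hvd0] at hv1
    rw [hvh] at hv2
    have heq : 2 * j1 + D * (i1 + e) = 2 * j2 + hh + D * i2 := by
      rw [Nat.mul_add]; omega
    have hm : (2 * j1 + D * (i1 + e)) % D = (2 * j2 + hh + D * i2) % D := by rw [heq]
    rw [Nat.add_mul_mod_self_left, Nat.add_mul_mod_self_left, Nat.mod_eq_of_lt (by omega),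
      Nat.mod_eq_of_lt (by omega)] at hm
    omega
  have hsum12 : ∑ m ∈ S1 ∪ S2, (1 : ℚ) / m = ((c * 2 ^ k * Q : ℕ) - (q2 : ℚ)) / L := by
    rw [Finset.sum_union hdisj, hS1sum, hS2sum]; ring
  have hcard12 : (S1 ∪ S2).card ≤ s * (2 * (Nat.log 2 r / (n / 16) + 4)) := by
    calc (S1 ∪ S2).card ≤ S1.card + S2.card := Finset.card_union_le _ _
      _ ≤ s * (I' + 1) + s * I' := Nat.add_le_add hS1card hS2card
      _ = s * (2 * I' + 1) := by ring
      _ ≤ s * (2 * (Nat.log 2 r / (n / 16) + 4)) := by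
        apply Nat.mul_le_mul_left
        rw [← hDdef]
        omega
  have hval12 : ∀ m ∈ S1 ∪ S2, 0 < m ∧ padicValNat 2 m ≤ V := by
    intro m hm
    rcases Finset.mem_union.1 hm with hm | hm
    · obtain ⟨h0, i1, j1, hi1, hj1, hv1⟩ := hS1 m hm
      refine ⟨h0, ?_⟩
      omega
    · obtain ⟨h0, i1, j1, hi1, hj1, hv1⟩ := hS2 m hm
      refine ⟨h0, ?_⟩
      omega
  have hqL : ((c * 2 ^ k * Q : ℕ) : ℚ) / L = c / M := by
    have h1 : (M : ℚ) ≠ 0 := by positivity
    have h2 : (L : ℚ) ≠ 0 := by positivity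
    rw [div_eq_div_iff h2 h1, hL]
    push_cast
    ring
  rcases Nat.eq_zero_or_pos q2 with hz | hz
  · refine ⟨S1 ∪ S2, fun m hm => (hval12 m hm).1, ?_, by omega⟩
    rw [hsum12, hz, ← hqL]
    simp
  · have hq2' : q2 ≤ 2 ^ (n / 8) := by
      calc q2 ≤ 2 ^ hh * 2 ^ (n / 64) := hq2.le
        _ = 2 ^ (hh + n / 64) := by rw [pow_add]
        _ ≤ 2 ^ (n / 8) := Nat.pow_le_pow_right (by norm_num) (by omega)
    obtain ⟨t, ht0, ht4, ht1, htgood⟩ := h.fin q2 hz hq2'
    obtain ⟨f, hf0, hfv, hfsum, hfne⟩ := one_step h hs 1 (t * q2 - 1) (t * L) (by positivity)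
      (by
        rw [hL, one_mul]
        exact ⟨t * (2 ^ k * M), by ring⟩) htgood
    have hvt : 2 * s ≤ padicValNat 2 t := by
      rw [← padicValNat_dvd_iff_le (by omega : t ≠ 0)]
      rwa [pow_mul]
    have hvtL : padicValNat 2 (t * L) = padicValNat 2 t + V := by
      rw [padicValNat.mul (by omega) (by omega), hV]
    have hfv' : ∀ j, padicValNat 2 (f j) + 2 * (j : ℕ) = padicValNat 2 t + V := by
      intro j
      have := hfv j
      rw [padicValNat_one_right, hvtL] at this
      omega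
    have hfinj : Function.Injective f := by
      intro i j hij
      have h1 := hfv' i
      have h2 := hfv' j
      rw [hij] at h1
      apply Fin.ext
      omega
    have hmod : (t * q2 - 1) % 4 = 3 := by
      have h4 : 4 ∣ t * q2 := by
        apply Dvd.dvd.mul_right
        exact dvd_trans (dvd_pow_self 4 (by omega)) ht4
      omega
    have hne := hfne hmod
    rw [Nat.div_one] at hne
    have hnotin : t * L ∉ (Finset.univ.image f) := by
      intro hmem
      obtain ⟨j, -, hj⟩ := Finset.mem_image.1 hmem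
      exact hne j hj
    have hdisj3 : Disjoint (S1 ∪ S2) (insert (t * L) (Finset.univ.image f)) := by
      rw [Finset.disjoint_left]
      intro m hm1 hm2
      have h1 := (hval12 m hm1).2
      rcases Finset.mem_insert.1 hm2 with rfl | hm2
      · rw [hvtL] at h1
        omega
      · obtain ⟨j, -, rfl⟩ := Finset.mem_image.1 hm2
        have h2 := hfv' j
        have h3 := j.2
        omega
    refine ⟨(S1 ∪ S2) ∪ insert (t * L) (Finset.univ.image f), ?_, ?_, ?_⟩
    · intro m hm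
      rcases Finset.mem_union.1 hm with hm | hm
      · exact (hval12 m hm).1
      · rcases Finset.mem_insert.1 hm with rfl | hm2
        · positivity
        · obtain ⟨j, -, rfl⟩ := Finset.mem_image.1 hm2
          exact hf0 j
    · rw [Finset.sum_union hdisj3, Finset.sum_insert hnotin,
        Finset.sum_image (fun i _ j _ hij => hfinj hij), hsum12, hfsum, ← hqL]
      have h2 : (L : ℚ) ≠ 0 := by positivity
      have h3 : (t : ℚ) ≠ 0 := by positivity
      have h4 : ((1 * (t * q2 - 1) : ℕ) : ℚ) = (t : ℚ) * q2 - 1 := by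
        rw [one_mul, Nat.cast_sub (by omega)]
        push_cast
        ring
      rw [h4]
      push_cast
      field_simp
      ring
    · calc ((S1 ∪ S2) ∪ insert (t * L) (Finset.univ.image f)).card
          ≤ (S1 ∪ S2).card + (insert (t * L) (Finset.univ.image f)).card :=
            Finset.card_union_le _ _
        _ ≤ (S1 ∪ S2).card + ((Finset.univ.image f).card + 1) :=
            Nat.add_le_add_left (Finset.card_insert_le _ _) _
        _ ≤ (S1 ∪ S2).card + (s + 1) := by
            have : (Finset.univ.image f).card ≤ s := by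
              simpa using (Finset.card_image_le (s := (Finset.univ : Finset (Fin s))) (f := f))
            omega
        _ ≤ s * (2 * (Nat.log 2 r / (n / 16) + 4)) + s + 1 := by omega

end Crest.Agent.R019
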