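import Crest.Agent.R019.Core
import Crest.Agent.R019.Greedy
import Crest.Agent.R019.Range

set_option autoImplicit false

namespace Crest.Agent.R019

open Finset

/-- The combination of the greedy phase and the tail phase, with an explicit natural bound. -/
theorem final_nat {s n Q A : ℕ} {good : ℕ → Prop} (h : CoreData s n Q good) (hs : 0 < s)
    (hn : 64 * (4 * s) ≤ n) (hQ : Q ≤ n ^ (A * n)) (a b : ℕ) (ha : 1 ≤ a) (hab : a < b)
    (hb : b < 2 ^ n) :
    ∃ S : Finset ℕ, (∀ m ∈ S, 2 ≤ m) ∧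
      S.card ≤ (A + 10 + s * (128 * (A + 2) + 10)) * (Nat.log 2 n + 1) ∧
      ∑ m ∈ S, (1 : ℚ) / (m : ℚ) = (a : ℚ) / (b : ℚ) := by
  have hb2 : 2 ≤ b := by omega
  have hn0 : 0 < n := by omega
  set l := Nat.log 2 n + 1 with hl
  have hl1 : 1 ≤ l := by omega
  have hnl : n < 2 ^ l := by
    rw [hl]; exact Nat.lt_pow_succ_log_self (by norm_num) n
  have hQpos := h.Qpos
  set K := n * (1 + l * A) with hK
  have hQ2 : Q ≤ 2 ^ (n * (l * A)) := by
    calc Q ≤ n ^ (A * n) := hQ
      _ ≤ (2 ^ l) ^ (A * n) := Nat.pow_le_pow_left hnl.le _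
      _ = 2 ^ (n * (l * A)) := by rw [← pow_mul]; congr 1; ring
  set T := b * Q with hT
  have hT2 : 2 ≤ T := by
    calc 2 ≤ b := hb2
      _ = b * 1 := by ring
      _ ≤ b * Q := Nat.mul_le_mul_left _ hQpos
  have hTK : T < 2 ^ K := by
    calc T = b * Q := rfl
      _ < 2 ^ n * Q := Nat.mul_lt_mul_of_pos_right hb hQpos
      _ ≤ 2 ^ n * 2 ^ (n * (l * A)) := Nat.mul_le_mul_left _ hQ2
      _ = 2 ^ K := by rw [← pow_add, hK]; congr 1; ring
  have hlogT : Nat.log 2 T ≤ K := (Nat.log_lt_of_lt_pow (by omega) hTK).le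
  have hK0 : 0 < K := by positivity
  have hKlt : K < 2 ^ (l * (A + 2)) := by
    have h1 : 1 + l * A < 2 ^ (1 + l * A) := Nat.lt_two_pow_self
    calc K = n * (1 + l * A) := rfl
      _ < 2 ^ l * 2 ^ (1 + l * A) := Nat.mul_lt_mul'' hnl h1
      _ = 2 ^ (l + (1 + l * A)) := by rw [← pow_add]
      _ ≤ 2 ^ (l * (A + 2)) := Nat.pow_le_pow_right (by norm_num) (by nlinarith)
  have hloglogT : Nat.log 2 (Nat.log 2 T) ≤ l * (A + 2) := by
    have := Nat.log_mono_right (b := 2) hlogT
    exact this.trans (Nat.log_lt_of_lt_pow (by omega) hKlt).le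
  obtain ⟨S, hS2, hScard, hS⟩ := greedy a b T ha hab hT2
  rcases hS with hS | ⟨c, M, r, hc, hcb, hM, hrM, hTr, hrb, hsum, hlt⟩
  · refine ⟨S, hS2, ?_, hS⟩
    calc S.card ≤ Nat.log 2 (Nat.log 2 T) + 4 := hScard
      _ ≤ l * (A + 2) + 4 * l := by omega
      _ ≤ (A + 10 + s * (128 * (A + 2) + 10)) * l := by
          have e3 : (A + 10 + s * (128 * (A + 2) + 10)) * l =
            (l * (A + 2) + 4 * l) + (4 * l + s * (128 * (A + 2) + 10) * l) := by ring
          omega
  · have hcr : c * Q ≤ r := le_trans (Nat.mul_le_mul_right _ hcb.le) hTr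
    obtain ⟨S', hS'0, hS'sum, hS'card⟩ := tail_rep h hs hn c M r hc hM hrM hcr
    have hMQ : (0 : ℚ) < M := by exact_mod_cast hM
    have hcQ : (0 : ℚ) < c := by exact_mod_cast hc
    have hle : ∀ m ∈ S', (1 : ℚ) / m ≤ c / M := by
      intro m hm
      rw [← hS'sum]
      exact Finset.single_le_sum (f := fun m : ℕ => (1 : ℚ) / m)
        (fun i _ => by positivity) hm
    have hSnonneg : (0 : ℚ) ≤ ∑ n ∈ S, (1 : ℚ) / n := Finset.sum_nonneg (fun i _ => by positivity)
    have hab1 : (a : ℚ) / b < 1 := by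
      rw [div_lt_one (by exact_mod_cast (by omega : 0 < b))]
      exact_mod_cast hab
    have hcM1 : (c : ℚ) / M < 1 := by linarith
    have hdisj : Disjoint S S' := by
      rw [Finset.disjoint_left]
      intro m hm hm'
      have h1 := hlt m hm
      have h2 := hle m hm'
      linarith
    refine ⟨S ∪ S', ?_, ?_, ?_⟩
    · intro m hm
      rcases Finset.mem_union.mp hm with hm | hm
      · exact hS2 m hm
      · have h0 := hS'0 m hm
        have h1 := hle m hm
        by_contra hcon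
        have : m = 1 := by omega
        subst this
        norm_num at h1
        linarith
    · have hlogr : Nat.log 2 r ≤ 2 * (n * (2 + l * A)) := by
        have h2 : r ≤ 2 ^ (2 * (n * (2 + l * A))) := by
          have hT3 : T ^ 2 ≤ 2 ^ (2 * K) := by
            calc T ^ 2 ≤ (2 ^ K) ^ 2 := Nat.pow_le_pow_left hTK.le _
              _ = 2 ^ (2 * K) := by rw [← pow_mul]; congr 1; ring
          calc r ≤ b * T ^ 2 + 1 := hrb
            _ ≤ 2 ^ n * 2 ^ (2 * K) + 1 := by
                have := Nat.mul_le_mul hb.le hT3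
                omega
            _ = 2 ^ (n + 2 * K) + 1 := by rw [pow_add]
            _ ≤ 2 ^ (n + 2 * K + 1) := by
                have : 1 ≤ 2 ^ (n + 2 * K) := Nat.one_le_two_pow
                rw [pow_succ]; omega
            _ ≤ 2 ^ (2 * (n * (2 + l * A))) := by
                apply Nat.pow_le_pow_right (by norm_num)
                have e4 : 2 * (n * (2 + l * A)) = n + 2 * (n * (1 + l * A)) + n := by ring
                rw [hK, e4]; omega
        calc Nat.log 2 r ≤ Nat.log 2 (2 ^ (2 * (n * (2 + l * A)))) := Nat.log_mono_right h2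
          _ = _ := Nat.log_pow (by norm_num) _
      have hdiv : Nat.log 2 r / (n / 16) ≤ 64 * (2 + l * A) := by
        have hn16 : 0 < n / 16 := by omega
        have hn32 : n ≤ 32 * (n / 16) := by omega
        rw [Nat.div_le_iff_le_mul_add_pred hn16]
        have : 2 * (n * (2 + l * A)) ≤ n / 16 * (64 * (2 + l * A)) := by
          calc 2 * (n * (2 + l * A)) ≤ 2 * ((32 * (n / 16)) * (2 + l * A)) := by gcongr
            _ = n / 16 * (64 * (2 + l * A)) := by ring
        omega
      have hunion : (S ∪ S').card ≤ S.card + S'.card := Finset.card_union_le _ _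
      have h3 : s * (2 * (Nat.log 2 r / (n / 16) + 4)) ≤ s * (2 * (64 * (2 + l * A) + 4)) := by
        gcongr
      have h4 : s * (2 * (64 * (2 + l * A) + 4)) ≤ s * (128 * (A + 2) + 8) * l := by
        have : 2 * (64 * (2 + l * A) + 4) ≤ (128 * (A + 2) + 8) * l := by
          have e1 : (128 * (A + 2) + 8) * l = 128 * (l * A) + 264 * l := by ring
          rw [e1]; omega
        calc s * (2 * (64 * (2 + l * A) + 4)) ≤ s * ((128 * (A + 2) + 8) * l) := by gcongr
          _ = _ := by ring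
      have h5 : s ≤ s * l := Nat.le_mul_of_pos_right s hl1
      calc (S ∪ S').card ≤ S.card + S'.card := hunion
        _ ≤ (l * (A + 2) + 4) + (s * (128 * (A + 2) + 8) * l + s + 1) := by omega
        _ ≤ (l * (A + 2) + 4 * l) + (s * (128 * (A + 2) + 8) * l + s * l + l) := by omega
        _ ≤ (A + 10 + s * (128 * (A + 2) + 10)) * l := by
            have e2 : (A + 10 + s * (128 * (A + 2) + 10)) * l =
              (l * (A + 2) + 4 * l) + (s * (128 * (A + 2) + 8) * l + s * l + l) + (3 * l + s * l)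
                := by ring
            omega
    · rw [Finset.sum_union hdisj, hS'sum, hsum]

theorem final :
    ∃ C : ℝ, ∃ b₀ : ℕ, ∀ (a b : ℕ), b₀ ≤ b → 1 ≤ a → a < b →
      ∃ S : Finset ℕ, (∀ n ∈ S, 2 ≤ n) ∧ (S.card : ℝ) ≤ C * Real.log (Real.log (b : ℝ)) ∧
        ∑ n ∈ S, (1 : ℚ) / (n : ℚ) = (a : ℚ) / (b : ℚ) := by
  obtain ⟨s, A, n0, hs, hcore⟩ := core
  set C1 := A + 10 + s * (128 * (A + 2) + 10) with hC1
  refine ⟨7 * C1, max (2 ^ (n0 + 64 * (4 * s))) (2 ^ 100), ?_⟩
  intro a b hb ha hab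
  have hb1 : 2 ^ (n0 + 64 * (4 * s)) ≤ b := le_trans (le_max_left _ _) hb
  have hb2 : 2 ^ 100 ≤ b := le_trans (le_max_right _ _) hb
  have hb0 : b ≠ 0 := by omega
  set n := Nat.log 2 b + 1 with hn
  have hbn : b < 2 ^ n := Nat.lt_pow_succ_log_self (by norm_num) b
  have hnn : n0 + 64 * (4 * s) ≤ n := by
    have : n0 + 64 * (4 * s) ≤ Nat.log 2 b := Nat.le_log_of_pow_le (by norm_num) hb1
    omega
  obtain ⟨Q, good, hcd, hQ⟩ := hcore n (by omega)
  obtain ⟨S, hS2, hScard, hSsum⟩ := final_nat hcd hs (by omega) hQ a b ha hab hbn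
  refine ⟨S, hS2, ?_, hSsum⟩
  -- real estimates
  have hbR : (2 : ℝ) ^ 100 ≤ b := by exact_mod_cast hb2
  have hbpos : (0 : ℝ) < b := lt_of_lt_of_le (by positivity) hbR
  have hlog2 : (1 / 2 : ℝ) ≤ Real.log 2 := by
    have := Real.log_two_gt_d9; linarith
  have hlogb : (50 : ℝ) ≤ Real.log b := by
    have h1 : Real.log ((2 : ℝ) ^ 100) ≤ Real.log b := Real.log_le_log (by positivity) hbR
    rw [Real.log_pow] at h1
    push_cast at h1
    linarith
  have hnb : (n : ℝ) ≤ 4 * Real.log b := by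
    have h1 : ((Nat.log 2 b : ℕ) : ℝ) * Real.log 2 ≤ Real.log b := by
      rw [← Real.log_pow]
      apply Real.log_le_log (by positivity)
      exact_mod_cast Nat.pow_log_le_self 2 hb0
    have h2 : ((Nat.log 2 b : ℕ) : ℝ) * (1 / 2) ≤ ((Nat.log 2 b : ℕ) : ℝ) * Real.log 2 := by
      gcongr
    have h3 : (n : ℝ) = (Nat.log 2 b : ℕ) + 1 := by rw [hn]; push_cast; ring
    rw [h3]
    linarith
  have hn0 : n ≠ 0 := by omega
  have hnpos : (0 : ℝ) < n := by exact_mod_cast Nat.pos_of_ne_zero hn0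
  have hloglog : (2 : ℝ) ≤ Real.log (Real.log b) := by
    rw [Real.le_log_iff_exp_le (by linarith)]
    have h1 : Real.exp 2 ≤ 50 := by
      have h2 : Real.exp 2 = Real.exp 1 * Real.exp 1 := by rw [← Real.exp_add]; norm_num
      rw [h2]
      have := Real.exp_one_lt_d9
      have h3 := Real.exp_pos 1
      nlinarith
    linarith
  have hl : ((Nat.log 2 n : ℕ) : ℝ) + 1 ≤ 7 * Real.log (Real.log b) := by
    have h1 : ((Nat.log 2 n : ℕ) : ℝ) * Real.log 2 ≤ Real.log n := by
      rw [← Real.log_pow]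
      apply Real.log_le_log (by positivity)
      exact_mod_cast Nat.pow_log_le_self 2 hn0
    have h2 : ((Nat.log 2 n : ℕ) : ℝ) * (1 / 2) ≤ ((Nat.log 2 n : ℕ) : ℝ) * Real.log 2 := by
      gcongr
    have h3 : Real.log n ≤ Real.log (4 * Real.log b) := Real.log_le_log hnpos hnb
    rw [Real.log_mul (by norm_num) (by linarith)] at h3
    have h4 : Real.log 4 ≤ 2 * 1 := by
      have : (4 : ℝ) = 2 ^ 2 := by norm_num
      rw [this, Real.log_pow]
      have := Real.log_two_lt_d9
      push_cast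
      linarith
    linarith
  have hC1nn : (0 : ℝ) ≤ (C1 : ℝ) := by positivity
  calc (S.card : ℝ) ≤ ((C1 * (Nat.log 2 n + 1) : ℕ) : ℝ) := by exact_mod_cast hScard
    _ = C1 * (((Nat.log 2 n : ℕ) : ℝ) + 1) := by push_cast; ring
    _ ≤ C1 * (7 * Real.log (Real.log b)) := by gcongr
    _ = 7 * C1 * Real.log (Real.log b) := by ring

end Crest.Agent.R019
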